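import Vale.Agent.P032.H635.Sep

/-!
# P032: the cusp lemma

`cusp_false`, `cuE`: `z` a two-pair centre with the pairs `ab | cd`, `V` on `S(z)` with an exact `ab`-arc of `S(z)` on
one side, `T V = {a, b, e, f}`, the faces at `V` connected (`Ctn U T V`).  Then there is no point `x` of `S(V)` with
`T x = {e, f}`.
-/

open Set Filter Topology Metric

noncomputable section

namespace Vale.Agent.P032.H635

open Vale.Agent.P032.Six Vale.Agent.P032.S5.H767

variable {U : Fin 6 → Set ℂ} {T : ℂ → Set (Fin 6)} {z V : ℂ} {a b c d e f : Fin 6}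

/-- a colour `f` on the side of the `ab`-arc is not needed -/
theorem Cu.kill (C : Cu U T z V a b c d e f) {t0 lam : ℝ}
    (hcore : ∀ᶠ x in 𝓝 V, x ≠ V → -‖x - V‖ ^ 2 ≤ lam * ip (cis t0) (x - V) → x ∈ U a ∨ x ∈ U b ∨ T x = {a, b})
    (hf : ∀ᶠ x in 𝓝 V, f ∈ T x → -‖x - V‖ ^ 2 ≤ lam * ip (cis t0) (x - V)) : False := by
  have h := C.irr
  have hnd := C.nd
  simp only [List.nodup_cons, List.mem_cons, List.not_mem_nil, or_false, not_or, List.nodup_nil,
    and_true, not_false_eq_true] at hnd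
  have haf : a ≠ f := hnd.1.2.2.2.2
  have hbf : b ≠ f := hnd.2.1.2.2.2
  have haV : a ∈ T V := by rw [C.TV]; simp
  have hbV : b ∈ T V := by rw [C.TV]; simp
  have hfV : f ∈ T V := by rw [C.TV]; simp
  refine C.mn V (by rw [C.four]) (T V \ {f}) sdiff_subset (fun h1 => ?_) ?_
  · have h2 : f ∈ T V \ {f} := by rw [h1]; exact hfV
    exact h2.2 rfl
  · filter_upwards [hcore, hf, h.nhd V] with x k1 k2 k3
    by_cases hfx : f ∈ T x
    · rcases eq_or_ne x V with rfl | hne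
      · exact ⟨a, ⟨haV, haf⟩, h.suf_mem haV⟩
      · rcases k1 hne (k2 hfx) with h1 | h1 | h1
        · exact ⟨a, ⟨haV, haf⟩, Or.inl h1⟩
        · exact ⟨b, ⟨hbV, hbf⟩, Or.inl h1⟩
        · exfalso
          rw [h1] at hfx
          rcases hfx with h2 | h2
          · exact haf h2.symm
          · exact hbf (mem_singleton_iff.1 h2).symm
    · obtain ⟨i, hi⟩ := h.ne x
      exact ⟨i, ⟨k3 hi, fun h1 => hfx ((mem_singleton_iff.1 h1) ▸ hi)⟩, h.suf_mem hi⟩

/-- near side in terms of the inner product -/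
theorem ip_of_le {x : ℂ} {t0 : ℝ} (h : dist x (V + cis t0) ≤ 1) : -‖x - V‖ ^ 2 ≤ (1 : ℝ) * ip (cis t0) (x - V) := by
  have h1 := Fn_le (P := x) (Q := V) (t := t0) (by rwa [dist_comm])
  rw [Fn] at h1
  have := sq_nonneg ‖x - V‖
  linarith

theorem ip_of_ge {x : ℂ} {t0 : ℝ} (h : 1 ≤ dist x (V + cis t0)) : -‖x - V‖ ^ 2 ≤ (-1 : ℝ) * ip (cis t0) (x - V) := by
  have h1 := Fn_ge (P := x) (Q := V) (t := t0) (by rwa [dist_comm])
  rw [Fn] at h1
  have := sq_nonneg ‖x - V‖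
  linarith

theorem sq_of_le {x w : ℂ} (h : dist x w ≤ 1) : (1 : ℝ) * (dist x w ^ 2 - 1) ≤ 0 := by
  have := dist_nonneg (x := x) (y := w)
  nlinarith

theorem sq_of_ge {x w : ℂ} (h : 1 ≤ dist x w) : (-1 : ℝ) * (dist x w ^ 2 - 1) ≤ 0 := by nlinarith

/-- the main case -/
theorem Cu.main (C : Cu U T z V a b c d e f) (hct : Ctn U T V) (hSd : Sd U z V a b) {s η : ℝ}
    (hs : s = 1 ∨ s = -1) (hη : 0 < η) (hA : ∀ t : ℝ, 0 < t → t < η → T (z + (V - z) * cis (s * t)) = {a, b}) :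
    False := by
  have h := C.irr
  have hnd := C.nd
  simp only [List.nodup_cons, List.mem_cons, List.not_mem_nil, or_false, not_or, List.nodup_nil,
    and_true, not_false_eq_true] at hnd
  have hef : e ≠ f := hnd.2.2.2.2
  have heV : e ∈ T V := by rw [C.TV]; simp
  have hfV : f ∈ T V := by rw [C.TV]; simp
  obtain ⟨y0, hy0⟩ := C.y0
  have hy0' : Arc T V y0 {e, f} := hy0
  obtain ⟨q, hq, hqz, hqz2⟩ := hy0'.exists_off_line (y := z)
  obtain ⟨t0, ht0⟩ := exists_cis (u := q - V) (by rw [← dist_eq_norm]; exact hq.1)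
  have hqt : q = V + cis t0 := by rw [← ht0]; ring
  rw [hqt] at hq
  obtain ⟨η0, hη0, hE0⟩ := hq.exists_eta
  obtain ⟨η', hη', hη'1, hE⟩ : ∃ η' : ℝ, 0 < η' ∧ η' ≤ 1 ∧ ∀ t : ℝ, |t - t0| < η' → T (V + cis t) = {e, f} :=
    ⟨min η0 1, by positivity, min_le_right _ _, fun t ht => hE0 t (lt_of_lt_of_le ht (min_le_left _ _))⟩
  have hc0 : cr (V - z) (cis t0) ≠ 0 := by
    intro h0
    rcases cr_zero (by rw [← dist_eq_norm]; exact C.dV) (norm_cis t0) h0 with h4 | h4
    · exact hqz2 (by rw [hqt, ← h4]; ring)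
    · exact hqz (by rw [hqt]; linear_combination h4)
  obtain ⟨lam, hl, hc⟩ : ∃ lam : ℝ, (lam = 1 ∨ lam = -1) ∧ 0 < lam * (s * cr (V - z) (cis t0)) := by
    have h1 : s * cr (V - z) (cis t0) ≠ 0 := mul_ne_zero (by rcases hs with rfl | rfl <;> norm_num) hc0
    rcases lt_or_gt_of_ne h1 with h2 | h2
    · exact ⟨-1, Or.inr rfl, by linarith⟩
    · exact ⟨1, Or.inl rfl, by linarith⟩
  have hcore := C.core hSd hs hη hA hη' hE hl hc
  have hw := hE t0 (by rw [sub_self, abs_zero]; exact hη')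
  have hcore' : ∀ᶠ x in 𝓝 V, x ≠ V → -‖x - V‖ ^ 2 ≤ lam * ip (cis t0) (x - V) → x ∈ U a ∨ x ∈ U b ∨ T x = {a, b} :=
    hcore
  rcases h.one_side hct (h.sub (V + cis t0) (by rw [hw]; simp : e ∈ T (V + cis t0))) with k1 | k1
  · rcases h.one_side hct (h.sub (V + cis t0) (by rw [hw]; simp : f ∈ T (V + cis t0))) with k2 | k2
    · exact sep h hct heV hfV hef (κ := 1) (Or.inl rfl) hη' hη'1 hE (k1.mono fun x g1 g2 => sq_of_le (g1 g2))
        (k2.mono fun x g1 g2 => sq_of_le (g1 g2))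
    · rcases hl with rfl | rfl
      · exact C.swap'.kill hcore' (k1.mono fun x g1 g2 => ip_of_le (g1 g2))
      · exact C.kill hcore' (k2.mono fun x g1 g2 => ip_of_ge (g1 g2))
  · rcases h.one_side hct (h.sub (V + cis t0) (by rw [hw]; simp : f ∈ T (V + cis t0))) with k2 | k2
    · rcases hl with rfl | rfl
      · exact C.kill hcore' (k2.mono fun x g1 g2 => ip_of_le (g1 g2))
      · exact C.swap'.kill hcore' (k1.mono fun x g1 g2 => ip_of_ge (g1 g2))
    · exact sep h hct heV hfV hef (κ := -1) (Or.inr rfl) hη' hη'1 hE (k1.mono fun x g1 g2 => sq_of_ge (g1 g2))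
        (k2.mono fun x g1 g2 => sq_of_ge (g1 g2))

/-- **THE CUSP LEMMA**, bundled form -/
theorem cusp_false (C : Cu U T z V a b c d e f) (hct : Ctn U T V) {s η : ℝ}
    (hs : s = 1 ∨ s = -1) (hη : 0 < η) (hA : ∀ t : ℝ, 0 < t → t < η → T (z + (V - z) * cis (s * t)) = {a, b}) :
    False := by
  obtain ⟨g0, hg0⟩ := C.dp.arc2
  obtain ⟨g, hg, hgV, hgV2⟩ := hg0.exists_off_line (y := V)
  rcases C.sides (g := g) hg hgV (by rw [add_comm]; exact hgV2) with h1 | h1
  · exact C.main hct h1 hs hη hA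
  · exact C.swap.main hct h1 hs hη fun t k1 k2 => by rw [pair_comm]; exact hA t k1 k2

/-- **THE CUSP LEMMA**: at a true end `V` (an exact `ab`-arc of `S(z)` starts at `V`) of a two-pair centre `z`, with
`T V = {a, b, e, f}` and connected faces at `V`, no point of `S(V)` has the palette `{e, f}` -/
theorem cuE (h : Irr U T) (hmn : Mn U T) (dp : DPt T z a b c d) (nd : [a, b, c, d, e, f].Nodup)
    (hTV : T V = {a, b, e, f}) (hct : Ctn U T V)
    (hA : ∃ o ε : ℝ, (o = 1 ∨ o = -1) ∧ 0 < ε ∧ ∀ t ∈ Ioo 0 ε, z + (V - z) * cis (-(o * t)) ∈ Ex T z {a, b}) :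
    ∀ x, dist x V = 1 → T x ≠ {e, f} := by
  intro x hx hxT
  obtain ⟨o, η, ho, hη, hA⟩ := hA
  have hV : dist V z = 1 := by
    have h1 := (hA (η / 2) ⟨by positivity, by linarith⟩).1
    rw [dist_eq_norm, add_sub_cancel_left, norm_mul, norm_cis, mul_one, ← dist_eq_norm] at h1
    exact h1
  have hnd := nd
  simp only [List.nodup_cons, List.mem_cons, List.not_mem_nil, or_false, not_or, List.nodup_nil,
    and_true, not_false_eq_true] at hnd
  have hef : e ≠ f := hnd.2.2.2.2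
  obtain ⟨q, -, hqV, hqc, hqs, h2, -⟩ := h.arc_of_sub (x := V) (y := x) hx
    (by rw [hxT, hTV]; intro i; simp; tauto) univ_mem
  have hq : T q = {e, f} := by
    rw [hxT] at hqs
    refine Set.eq_of_subset_of_ncard_le hqs ?_ (Set.toFinite _)
    rw [Set.ncard_pair hef]; exact h2
  have C : Cu U T z V a b c d e f :=
    { irr := h, mn := hmn, dp := dp, nd := nd, dV := hV, TV := hTV, y0 := ⟨q, hqV, by rw [← hq]; exact hqc⟩ }
  refine cusp_false C hct (s := -o) (η := η) (by rcases ho with rfl | rfl <;> norm_num) hη fun t k1 k2 => ?_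
  have h3 := ex_self (hA t ⟨k1, k2⟩)
  rwa [← neg_mul] at h3

end Vale.Agent.P032.H635
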