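import Vale.Agent.P032.H635.CuspG
import Vale.Agent.P032.H820.Hull
import Vale.Agent.P032.S5.H767.Let
import Vale.Agent.P032.S5.H843.Core7
import Vale.Agent.P032.S5.H360.Degree

/-!
# P032: the cusp lemma
-/

open Set Filter Topology Metric

noncomputable section

namespace Vale.Agent.P032.H635

open Vale.Agent.P032.Six Vale.Agent.P032.S5.H767

variable {U : Fin 6 → Set ℂ} {T : ℂ → Set (Fin 6)} {z V : ℂ} {a b c d e f : Fin 6}

/-- a two-pair centre `z` with the pairs `ab | cd`, a point `V` of `S(z)` with the colours `a, b, e, f` and an exact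
`ef`-arc on `S(V)` -/
structure Cu (U : Fin 6 → Set ℂ) (T : ℂ → Set (Fin 6)) (z V : ℂ) (a b c d e f : Fin 6) : Prop where
  irr : Irr U T
  mn : Mn U T
  dp : DPt T z a b c d
  nd : [a, b, c, d, e, f].Nodup
  dV : dist V z = 1
  TV : T V = {a, b, e, f}
  y0 : ∃ y, y ∈ Ex T V {e, f}

theorem all6 (nd : [a, b, c, d, e, f].Nodup) (i : Fin 6) :
    i = a ∨ i = b ∨ i = c ∨ i = d ∨ i = e ∨ i = f := by
  have h1 : ([a, b, c, d, e, f] : List (Fin 6)).toFinset = Finset.univ :=
    Finset.eq_univ_of_card _ (by rw [List.toFinset_card_of_nodup nd]; rfl)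
  have h2 : i ∈ ([a, b, c, d, e, f] : List (Fin 6)).toFinset := by rw [h1]; exact Finset.mem_univ i
  simpa using h2

/-- exchange of `a` and `b` -/
theorem Cu.swap (C : Cu U T z V a b c d e f) : Cu U T z V b a c d e f where
  irr := C.irr
  mn := C.mn
  dp := C.dp.swap12
  nd := by
    have := C.nd
    simp only [List.nodup_cons, List.mem_cons, List.not_mem_nil, or_false, not_or, List.nodup_nil,
      and_true, not_false_eq_true] at this ⊢
    tauto
  dV := C.dV
  TV := by rw [C.TV]; ext i; simp only [mem_insert_iff, mem_singleton_iff]; tauto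
  y0 := C.y0

/-- exchange of `e` and `f` -/
theorem Cu.swap' (C : Cu U T z V a b c d e f) : Cu U T z V a b c d f e where
  irr := C.irr
  mn := C.mn
  dp := C.dp
  nd := by
    have := C.nd
    simp only [List.nodup_cons, List.mem_cons, List.not_mem_nil, or_false, not_or, List.nodup_nil,
      and_true, not_false_eq_true] at this ⊢
    tauto
  dV := C.dV
  TV := by rw [C.TV]; ext i; simp only [mem_insert_iff, mem_singleton_iff]; tauto
  y0 := by rw [pair_comm f e]; exact C.y0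

/-- four colours -/
theorem Cu.four (C : Cu U T z V a b c d e f) : (T V).ncard = 4 := by
  have h1 := four_le (s := T V) (p := a) (q := b) (r := e) (t := f) (by rw [C.TV]; simp) (by rw [C.TV]; simp)
    (by rw [C.TV]; simp) (by rw [C.TV]; simp) (by
      have := C.nd
      simp only [List.nodup_cons, List.mem_cons, List.not_mem_nil, or_false, not_or, List.nodup_nil,
        and_true, not_false_eq_true] at this ⊢
      tauto)
  have h2 : (T V).ncard ≤ 4 := by
    rw [C.TV]
    refine (Set.ncard_insert_le _ _).trans ?_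
    have h3 := Set.ncard_insert_le b {e, f}
    have h4 := Set.ncard_insert_le e {f}
    have h5 : ({f} : Set (Fin 6)).ncard = 1 := Set.ncard_singleton f
    omega
  omega

/-- **(S3)** a point of `S(V)` with only colours of an arc of `S(z)` which ends in `V` -/
theorem s3 (h : Irr U T) {P : Set (Fin 6)} (hV : V ∈ closure (Ex T z P)) {q : ℂ} (hq : dist q V = 1)
    (hqT : T q ⊆ P) (h1 : q ≠ z) (h2 : q + z ≠ 2 * V) : False := by
  have c1 : Tendsto (fun y => q + (y - V)) (𝓝 V) (𝓝 q) := by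
    have : Continuous fun y : ℂ => q + (y - V) := by fun_prop
    simpa using this.tendsto V
  have c2 : Tendsto (fun y => q + (y - V) + z - 2 * y) (𝓝 V) (𝓝 (q + z - 2 * V)) := by
    have : Continuous fun y : ℂ => q + (y - V) + z - 2 * y := by fun_prop
    simpa using this.tendsto V
  have e1 := c1.eventually (h.nhd q)
  have e2 := c1.eventually (isOpen_ne.mem_nhds h1)
  have e3 := c2.eventually (isOpen_ne.mem_nhds (sub_ne_zero.2 h2))
  obtain ⟨y, ⟨hy1, hy2, hy3⟩, hyE⟩ := mem_closure_iff_nhds.1 hV _ (e1.and (e2.and e3))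
  obtain ⟨i, hi⟩ := h.ne (q + (y - V))
  have hiP : i ∈ P := hqT (hy1 hi)
  refine line_free h hyE.1 (hyE.2.mono fun r hr => by rw [hr]; exact hiP) ?_ hy2 (sub_ne_zero.1 hy3) (h.sub _ hi)
  rw [dist_comm, ← hq, dist_eq_norm, dist_eq_norm]; congr 1; ring

/-- the circle about `V` opposite to the `cd`-arcs of `S(z)` carries `e, f` -/
theorem Cu.arc_ef (C : Cu U T z V a b c d e f) (hcl : V ∈ closure (Ex T z {a, b})) {g : ℂ}
    (hg : g ∈ Ex T z {c, d}) (hop : V + g ≠ 2 * z) : e ∈ T (V + (g - z)) ∧ f ∈ T (V + (g - z)) := by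
  have h := C.irr
  have hnd := C.nd
  simp only [List.nodup_cons, List.mem_cons, List.not_mem_nil, or_false, not_or, List.nodup_nil,
    and_true, not_false_eq_true] at hnd
  have hgT := ex_self hg
  have hVg : g ≠ V := by
    rintro rfl
    have h1 : c ∈ T g := by rw [hgT]; simp
    rw [C.TV] at h1
    simp only [mem_insert_iff, mem_singleton_iff] at h1
    rcases h1 with h1 | h1 | h1 | h1
    · exact hnd.1.2.1 h1.symm
    · exact hnd.2.1.1 h1.symm
    · exact hnd.2.2.1.2.1 h1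
    · exact hnd.2.2.1.2.2 h1
  obtain ⟨w, hw⟩ : ∃ w, w = V + (g - z) := ⟨_, rfl⟩
  rw [← hw]
  have hwV : dist w V = 1 := by
    rw [← hg.1, hw, dist_eq_norm, dist_eq_norm]; congr 1; ring
  have hgw : dist g w = 1 := by
    rw [← C.dV, dist_comm, hw, dist_eq_norm, dist_eq_norm]; congr 1; ring
  have hwz : w ≠ z := fun h1 => hop (by rw [hw] at h1; linear_combination h1)
  have hwz2 : w + z ≠ 2 * g := fun h1 => hVg (by rw [hw] at h1; linear_combination -h1)
  have hwz3 : w + z ≠ 2 * V := fun h1 => hVg (by rw [hw] at h1; linear_combination h1)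
  have hno : ∀ i ∈ ({c, d} : Set (Fin 6)), i ∉ T w := fun i hi hiw =>
    line_free h hg.1 (hg.2.mono fun r hr => by rw [hr]; exact hi) hgw hwz hwz2 (h.sub _ hiw)
  have hsub : T w ⊆ T V := by
    intro i hi
    rw [C.TV]
    rcases all6 C.nd i with rfl | rfl | rfl | rfl | rfl | rfl
    · simp
    · simp
    · exact absurd hi (hno _ (by simp))
    · exact absurd hi (hno _ (by simp))
    · simp
    · simp
  have hW : {x : ℂ | x + z ≠ 2 * V ∧ x ≠ z} ∈ 𝓝 w := by
    have c1 : ∀ᶠ x in 𝓝 w, x + z ≠ 2 * V := by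
      have : Continuous fun x : ℂ => x + z := by fun_prop
      exact (this.tendsto w).eventually (isOpen_ne.mem_nhds hwz3)
    exact c1.and (isOpen_ne.mem_nhds hwz)
  obtain ⟨q, hqW, hqV, hqc, hqs, h2, h2'⟩ := h.arc_of_sub hwV hsub hW
  have hqs' := hqs.trans hsub
  have hc1 : (T q).ncard = 2 := by
    have h3 := Set.ncard_sdiff hqs' (Set.toFinite _)
    have h4 := C.four
    omega
  obtain ⟨y0, hy0⟩ := C.y0
  have hy0T := ex_self hy0
  have hc2 : (T y0).ncard = 2 := by rw [hy0T]; exact Set.ncard_pair hnd.2.2.2.2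
  rcases h.pairs_disjoint C.mn C.four hqV hy0.1 hqs' (by rw [hy0T, C.TV]; intro i; simp; tauto) hc1 hc2 with h5 | h5
  · rw [hy0T] at h5
    exact ⟨hqs (by rw [h5]; simp), hqs (by rw [h5]; simp)⟩
  · exfalso
    refine s3 h hcl hqV ?_ hqW.2 hqW.1
    intro i hi
    have h6 := hqs' hi
    rw [C.TV] at h6
    have h7 : i ∉ T y0 := Set.disjoint_left.1 h5 hi
    rw [hy0T] at h7
    simp only [mem_insert_iff, mem_singleton_iff] at h6 h7 ⊢
    tauto

/-- outside and inside of `S(z)` near `V` -/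
def Sd (U : Fin 6 → Set ℂ) (z V : ℂ) (a b : Fin 6) : Prop :=
  ∀ᶠ x in 𝓝 V, (1 < dist x z → a ∉ Pal U x) ∧ (dist x z < 1 → b ∉ Pal U x)

/-- **(D0)** -/
theorem Cu.sides (C : Cu U T z V a b c d e f) {g : ℂ} (hg : g ∈ Ex T z {c, d}) (h1 : g ≠ V)
    (h2 : V + g ≠ 2 * z) : Sd U z V a b ∨ Sd U z V b a := by
  have h := C.irr
  have hgz : dist g z = 1 := hg.1
  have hip : ip (Complex.I * (g - z)) (V - z) ≠ 0 := by
    intro h0
    have h3 : cr (g - z) (V - z) = 0 := by
      unfold ip at h0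
      unfold cr
      simp at h0
      simp
      linarith
    rcases cr_zero (by rw [← dist_eq_norm]; exact hgz) (by rw [← dist_eq_norm]; exact C.dV) h3 with h4 | h4
    · exact h1 (by linear_combination h4)
    · exact h2 (by linear_combination h4)
  have hneg : ip (-(Complex.I * (g - z))) (V - z) = -ip (Complex.I * (g - z)) (V - z) := by
    unfold ip; simp; ring
  rcases h.d0 C.dp hg with ⟨r1, r2⟩ | ⟨r1, r2⟩
  · rcases lt_or_gt_of_ne hip with h3 | h3
    · right
      filter_upwards [h.mx.near r1 C.dV h3, h.mx.far r2 C.dV (by rw [hneg]; linarith)] with x hx1 hx2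
      exact ⟨hx2, hx1⟩
    · left
      filter_upwards [h.mx.far r1 C.dV h3, h.mx.near r2 C.dV (by rw [hneg]; linarith)] with x hx1 hx2
      exact ⟨hx1, hx2⟩
  · rcases lt_or_gt_of_ne hip with h3 | h3
    · left
      filter_upwards [h.mx.near r1 C.dV h3, h.mx.far r2 C.dV (by rw [hneg]; linarith)] with x hx1 hx2
      exact ⟨hx2, hx1⟩
    · right
      filter_upwards [h.mx.far r1 C.dV h3, h.mx.near r2 C.dV (by rw [hneg]; linarith)] with x hx1 hx2
      exact ⟨hx1, hx2⟩

/-- **the rays at `V`** -/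
theorem ray_one (h : Irr U T) {i j : Fin 6} (hTV : T V = {i, j, e, f}) {ε σ t1 η : ℝ} (hσ : σ = 1 ∨ σ = -1)
    (hS : ∀ᶠ x in 𝓝 V, 0 < ε * (dist x z ^ 2 - 1) → j ∉ Pal U x) (hV : dist V z = 1) (hη : 0 < η)
    (he : ∀ t : ℝ, |t - t1| < η → e ∈ Pal U (V + cis t)) (hf : ∀ t : ℝ, |t - t1| < η → f ∈ Pal U (V + cis t))
    (hu : 0 < ε * ip (σ * (Complex.I * cis t1)) (V - z)) : Ray (U i) V (σ * (Complex.I * cis t1)) := by
  have he' := h.mx.ray_avoid hη he hσ
  have hf' := h.mx.ray_avoid hη hf hσ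
  generalize (σ : ℂ) * (Complex.I * cis t1) = u at *
  have hcont : Tendsto (fun r : ℝ => V + r * u) (𝓝[>] 0) (𝓝 V) := by
    have : Continuous fun r : ℝ => V + r * u := by fun_prop
    have h2 := this.tendsto 0
    simp only [Complex.ofReal_zero, zero_mul, add_zero] at h2
    exact h2.mono_left nhdsWithin_le_nhds
  have hpos : ∀ᶠ r : ℝ in 𝓝[>] 0, 0 < 2 * (ε * ip u (V - z)) + r * (ε * ip u u) := by
    have : Continuous fun r : ℝ => 2 * (ε * ip u (V - z)) + r * (ε * ip u u) := by fun_prop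
    refine nhdsWithin_le_nhds ((this.tendsto 0).eventually (lt_mem_nhds ?_))
    simpa using hu
  filter_upwards [he', hf', hcont.eventually (h.nhd V), hcont.eventually hS, hpos, self_mem_nhdsWithin]
    with r h1 h2 h3 h4 h5 h6
  have h6 : 0 < r := h6
  have h7 : 0 < ε * (dist (V + r * u) z ^ 2 - 1) := by
    have h8 : ip u (z - V) = -ip u (V - z) := by unfold ip; simp; ring
    rw [sq_line, hV, h8]
    have h9 := mul_pos h6 h5
    linarith
  refine h.mem_of_single fun k hk => ?_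
  have h10 := h3 hk
  rw [hTV] at h10
  rcases h10 with rfl | rfl | rfl | h11
  · rfl
  · exact absurd (h.sub _ hk) (h4 h7)
  · exact absurd (h.sub _ hk) h1
  · rw [mem_singleton_iff] at h11
    subst h11
    exact absurd (h.sub _ hk) h2

/-- near or far, `Pal` form -/
theorem nof (h : Irr U T) {Γ : Set ℂ} (hΓ : IsPreconnected Γ) {i : Fin 6} (hi : ∀ x ∈ Γ, i ∈ Pal U x) {t : ℂ}
    (ht : i ∈ Pal U t) : (∀ p ∈ Γ, dist p t ≤ 1) ∨ ∀ p ∈ Γ, 1 ≤ dist p t := by
  by_contra hcon
  push Not at hcon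
  obtain ⟨⟨q, hq, hq1⟩, p, hp, hp1⟩ := hcon
  exact h.mx.wlemma hΓ (fun x hx => hi x hx) hp hq hp1 hq1 ht

/-- the path: the ray and the arc -/
def path (z V u : ℂ) (s r1 t1 : ℝ) : Set ℂ :=
  (fun r : ℝ => V + r * u) '' Icc 0 r1 ∪ (fun t : ℝ => z + (V - z) * cis (s * t)) '' Icc 0 t1

theorem cis_zero' : cis 0 = 1 := by simp [cis]

theorem path_conn {u : ℂ} {s r1 t1 : ℝ} (hr : 0 ≤ r1) (ht : 0 ≤ t1) : IsPreconnected (path z V u s r1 t1) := by
  have h1 : IsPreconnected ((fun r : ℝ => V + r * u) '' Icc 0 r1) :=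
    isPreconnected_Icc.image _ (by fun_prop)
  have h2 : IsPreconnected ((fun t : ℝ => z + (V - z) * cis (s * t)) '' Icc 0 t1) := by
    refine isPreconnected_Icc.image _ (Continuous.continuousOn ?_)
    exact continuous_const.add (continuous_const.mul (continuous_cis.comp (continuous_const.mul continuous_id)))
  refine h1.union V ?_ ?_ h2
  · exact ⟨0, ⟨le_rfl, hr⟩, by simp⟩
  · exact ⟨0, ⟨le_rfl, ht⟩, by simp [cis_zero']⟩

/-- **THE CUSP**: between a ray of `U i` at `V` and an arc of `S(z)` with the colour `i` there is only `U i` -/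
theorem cusp (h : Irr U T) {i : Fin 6} (hiV : i ∈ Pal U V) {u : ℂ} {ε s η : ℝ} (hV : dist V z = 1)
    (hu1 : ‖u‖ = 1) (hray : Ray (U i) V u) (hε : ε = 1 ∨ ε = -1) (hs : s = 1 ∨ s = -1)
    (hκ : 0 < ε * ip u (V - z)) (hη : 0 < η)
    (hA : ∀ t : ℝ, 0 < t → t < η → i ∈ Pal U (z + (V - z) * cis (s * t))) :
    ∀ᶠ x in 𝓝 V, 0 < s * (ε * cr u (x - V)) → 0 < ε * (dist x z ^ 2 - 1) → x ∈ U i := by
  obtain ⟨δ, hδ, hd⟩ := hray.exists_delta
  obtain ⟨ρ, hρ, hhit⟩ := hit hV hu1 hε hs hκ (half_pos hδ) (half_pos hη)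
  have hΓ : IsPreconnected (path z V u s (δ / 2) (η / 2)) := path_conn (by positivity) (by positivity)
  have hΓi : ∀ y ∈ path z V u s (δ / 2) (η / 2), i ∈ Pal U y := by
    rintro y (⟨r, hr, rfl⟩ | ⟨t, ht, rfl⟩)
    · rcases eq_or_lt_of_le hr.1 with h0 | h0
      · simpa [← h0] using hiV
      · exact subset_closure (hd r h0 (by linarith [hr.2]))
    · rcases eq_or_lt_of_le ht.1 with h0 | h0
      · simpa [← h0, cis_zero'] using hiV
      · exact hA t h0 (by linarith [ht.2])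
  have hin : ∀ y : ℂ, ((∃ r ∈ Icc 0 (δ / 2), y = V + (r : ℝ) * u) ∨
      ∃ t ∈ Icc 0 (η / 2), y = z + (V - z) * cis (s * t)) → y ∈ path z V u s (δ / 2) (η / 2) := by
    rintro y (⟨r, hr, rfl⟩ | ⟨t, ht, rfl⟩)
    · exact Or.inl ⟨r, hr, rfl⟩
    · exact Or.inr ⟨t, ht, rfl⟩
  filter_upwards [ball_mem_nhds V hρ] with x hx g1 g2
  by_contra hxU
  obtain ⟨p, hxp, hp⟩ := h.partner hxU
  have hcm : Continuous fun t : ℝ => p + t * (x - p) := by fun_prop
  have e1 : p + ((1 : ℝ) : ℂ) * (x - p) = x := by push_cast; ring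
  have hR : ∀ᶠ t : ℝ in 𝓝 1, dist (p + t * (x - p)) V < ρ ∧ 0 < s * (ε * cr u (p + t * (x - p) - V)) ∧
      0 < ε * (dist (p + t * (x - p)) z ^ 2 - 1) := by
    have k1 : ContinuousAt (fun t : ℝ => dist (p + t * (x - p)) V) 1 := by fun_prop
    have k2 : ContinuousAt (fun t : ℝ => s * (ε * cr u (p + t * (x - p) - V))) 1 := by
      unfold cr; fun_prop
    have k3 : ContinuousAt (fun t : ℝ => ε * (dist (p + t * (x - p)) z ^ 2 - 1)) 1 := by fun_prop
    refine (k1.eventually (gt_mem_nhds ?_)).and ((k2.eventually (lt_mem_nhds ?_)).and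
      (k3.eventually (lt_mem_nhds ?_)))
    · show dist (p + ((1 : ℝ) : ℂ) * (x - p)) V < ρ
      rw [e1]; exact hx
    · show 0 < s * (ε * cr u (p + ((1 : ℝ) : ℂ) * (x - p) - V))
      rw [e1]; exact g1
    · show 0 < ε * (dist (p + ((1 : ℝ) : ℂ) * (x - p)) z ^ 2 - 1)
      rw [e1]; exact g2
  have hn : ∀ t : ℝ, 0 ≤ t → dist (p + t * (x - p)) p = t := by
    intro t ht
    rw [dist_eq_norm, add_sub_cancel_left, norm_mul, ← dist_eq_norm, hxp, mul_one, Complex.norm_real,
      Real.norm_of_nonneg ht]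
  rcases nof h hΓ hΓi hp with hnear | hfar
  · have hR2 : ∀ᶠ t : ℝ in 𝓝[>] 1, (_ ∧ _) ∧ 1 < t :=
      ((hR.and (gt_mem_nhds (show (1 : ℝ) < 2 by norm_num))).filter_mono nhdsWithin_le_nhds).and
        self_mem_nhdsWithin
    obtain ⟨t, ⟨ht, ht2⟩, ht1⟩ := hR2.exists
    obtain ⟨y, hy1, hy2⟩ := hhit _ ht.1 ht.2.1 ht.2.2 p (by rw [hn t (by linarith)]; linarith)
      (by rw [hn t (by linarith)]; exact le_of_lt ht2)
    have := hnear y (hin y hy2)
    rw [hy1, hn t (by linarith)] at this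
    linarith
  · have hR2 : ∀ᶠ t : ℝ in 𝓝[<] 1, (_ ∧ _) ∧ t < 1 :=
      ((hR.and (lt_mem_nhds (show (1 : ℝ) / 2 < 1 by norm_num))).filter_mono nhdsWithin_le_nhds).and
        self_mem_nhdsWithin
    obtain ⟨t, ⟨ht, ht2⟩, ht1⟩ := hR2.exists
    obtain ⟨y, hy1, hy2⟩ := hhit _ ht.1 ht.2.1 ht.2.2 p (by rw [hn t (by linarith)]; exact le_of_lt ht2)
      (by rw [hn t (by linarith)]; linarith)
    have := hfar y (hin y hy2)
    rw [hy1, hn t (by linarith)] at this
    linarith

/-- **THE ARC SIDE**: near `V`, on the closed side of `S(y0)` with the `ab`-arc, there is no `e` and no `f`.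
`cis t0` is the direction of the exact `ef`-arc of `S(V)`. -/
theorem Cu.core (C : Cu U T z V a b c d e f) (hSd : Sd U z V a b) {s η : ℝ} (hs : s = 1 ∨ s = -1) (hη : 0 < η)
    (hA : ∀ t : ℝ, 0 < t → t < η → T (z + (V - z) * cis (s * t)) = {a, b}) {t0 η' lam : ℝ} (hη' : 0 < η')
    (hE : ∀ t : ℝ, |t - t0| < η' → T (V + cis t) = {e, f}) (hl : lam = 1 ∨ lam = -1)
    (hc : 0 < lam * (s * cr (V - z) (cis t0))) :
    ∀ᶠ x in 𝓝 V, x ≠ V → -‖x - V‖ ^ 2 ≤ lam * ip (cis t0) (x - V) → x ∈ U a ∨ x ∈ U b ∨ T x = {a, b} := by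
  have h := C.irr
  have hV := C.dV
  have hAa : ∀ t : ℝ, 0 < t → t < η → a ∈ Pal U (z + (V - z) * cis (s * t)) := fun t h1 h2 =>
    h.sub _ (by rw [hA t h1 h2]; simp)
  have hAb : ∀ t : ℝ, 0 < t → t < η → b ∈ Pal U (z + (V - z) * cis (s * t)) := fun t h1 h2 =>
    h.sub _ (by rw [hA t h1 h2]; simp)
  have hnorm : ∀ t1 σ : ℝ, (σ = 1 ∨ σ = -1) → ‖(σ : ℂ) * (Complex.I * cis t1)‖ = 1 := by
    intro t1 σ hσ
    rw [norm_mul, norm_mul, norm_cis, Complex.norm_I, Complex.norm_real, Real.norm_eq_abs, abs_unit hσ]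
    norm_num
  have hdist : ∀ x : ℂ, (0 < dist x z ^ 2 - 1 → 1 < dist x z) ∧ (dist x z ^ 2 - 1 < 0 → dist x z < 1) := by
    intro x
    have h0 := dist_nonneg (x := x) (y := z)
    constructor <;> intro h1 <;> nlinarith
  -- inside: colour `a`
  obtain ⟨t1, σ, ht1, hσ, hu, hin⟩ := turn (ε := -1) hV hs hl (Or.inr rfl) (half_pos hη') hc
  have r1 : Ray (U a) V (σ * (Complex.I * cis t1)) := by
    refine ray_one (e := e) (f := f) (i := a) (j := b) (ε := -1) (η := η' / 2) h C.TV hσ ?_ hV (by positivity) ?_ ?_ hu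
    · filter_upwards [hSd] with x hx hx2
      exact hx.2 ((hdist x).2 (by linarith))
    · intro t ht
      refine h.sub _ ?_
      rw [hE t (by
        have := abs_sub_le t t1 t0
        linarith)]; simp
    · intro t ht
      refine h.sub _ ?_
      rw [hE t (by
        have := abs_sub_le t t1 t0
        linarith)]; simp
  have c1 := cusp h (i := a) (h.sub V (by rw [C.TV]; simp)) hV (hnorm t1 σ hσ) r1 (Or.inr rfl) hs hu hη hAa
  -- outside: colour `b`
  obtain ⟨t2, σ', ht2, hσ', hu', hout⟩ := turn (ε := 1) hV hs hl (Or.inl rfl) (half_pos hη') hc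
  have hTV' : T V = {b, a, e, f} := C.swap.TV
  have r2 : Ray (U b) V (σ' * (Complex.I * cis t2)) := by
    refine ray_one (e := e) (f := f) (i := b) (j := a) (ε := 1) (η := η' / 2) h hTV' hσ' ?_ hV (by positivity) ?_ ?_ hu'
    · filter_upwards [hSd] with x hx hx2
      exact hx.1 ((hdist x).1 (by linarith))
    · intro t ht
      refine h.sub _ ?_
      rw [hE t (by
        have := abs_sub_le t t2 t0
        linarith)]; simp
    · intro t ht
      refine h.sub _ ?_
      rw [hE t (by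
        have := abs_sub_le t t2 t0
        linarith)]; simp
  have c2 := cusp h (i := b) (h.sub V (by rw [C.TV]; simp)) hV (hnorm t2 σ' hσ') r2 (Or.inl rfl) hs hu' hη hAb
  have c3 := on_circ (ε := 1) hV (hnorm t2 σ' hσ') (Or.inl rfl) hs hu' (half_pos hη)
  filter_upwards [c1, c2, c3, hin, hout] with x k1 k2 k3 k4 k5 hne hx
  rcases lt_trichotomy (dist x z ^ 2 - 1) 0 with h1 | h1 | h1
  · exact Or.inl (k1 (k4 hne hx (by linarith)) (by linarith))
  · right; right
    have h2 : dist x z = 1 := by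
      have h0 := dist_nonneg (x := x) (y := z)
      nlinarith
    obtain ⟨t, ht, hxt⟩ := k3 h2 (k5 hne hx (by linarith))
    rcases eq_or_lt_of_le ht.1 with h3 | h3
    · exfalso
      apply hne
      rw [hxt, ← h3, mul_zero, cis_zero']
      ring
    · rw [hxt]; exact hA t h3 (by linarith [ht.2])
  · exact Or.inr (Or.inl (k2 (k5 hne hx (by linarith)) (by linarith)))

end Vale.Agent.P032.H635
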