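import Vale.Agent.P032.S5.H80.Ray

/-!
# P032: the cusp between a ray and a unit circle

`V` on the unit circle about `z`, a ray `V + r u` not tangent to this circle, an arc of the circle on one side of
`V`.  A circle through a point `x` near `V` between the ray and the arc meets the ray or the arc near `V`.
`hit0`: coordinates with `V = 0`, `z = -1`; `hit`: in general position.
-/

open Set Filter Topology Metric

noncomputable section

namespace Vale.Agent.P032.H635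

open Vale.Agent.P032.Six

/-- two opposite values -/
theorem abs_of_two {s A B : ℝ} (hs : s = 1 ∨ s = -1) (h1 : 0 ≤ s * (A + B)) (h2 : 0 ≤ s * (A - B)) :
    |B| ≤ |A| := by
  rcases hs with rfl | rfl
  · rw [abs_le]
    have h3 := le_abs_self A
    constructor <;> linarith
  · rw [abs_le]
    have h3 := neg_abs_le A
    constructor <;> linarith

theorem abs_unit {s : ℝ} (hs : s = 1 ∨ s = -1) : |s| = 1 := by rcases hs with rfl | rfl <;> norm_num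

/-- Cauchy in the plane -/
theorem cauchy2 {a b x y m n : ℝ} (hm : 0 ≤ m) (hn : 0 ≤ n) (h1 : a ^ 2 + b ^ 2 ≤ m ^ 2)
    (h2 : x ^ 2 + y ^ 2 ≤ n ^ 2) : |a * x + b * y| ≤ m * n := by
  refine abs_le_of_sq_le_sq ?_ (by positivity)
  have h3 : (a * x + b * y) ^ 2 + (a * y - b * x) ^ 2 = (a ^ 2 + b ^ 2) * (x ^ 2 + y ^ 2) := by ring
  have h4 : (a ^ 2 + b ^ 2) * (x ^ 2 + y ^ 2) ≤ m ^ 2 * n ^ 2 :=
    mul_le_mul h1 h2 (by positivity) (by positivity)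
  nlinarith [sq_nonneg (a * y - b * x)]

/-- the first functional -/
theorem ends1 {κ ω q1 q2 x1 x2 d S ρ ε s : ℝ} (h1 : κ ^ 2 + ω ^ 2 = 1) (hε : ε = 1 ∨ ε = -1)
    (hs : s = 1 ∨ s = -1) (hq' : q1 ^ 2 + q2 ^ 2 ≤ 4) (hρ : 0 < ρ)
    (hx : x1 ^ 2 + x2 ^ 2 ≤ ρ ^ 2) (hd0 : 0 ≤ d)
    (a1 : 0 ≤ s * (-ε * ω * (x1 - q1 * d - q2 * S) + κ * (x2 + q1 * S - q2 * d)))
    (a2 : 0 ≤ s * (-ε * ω * (x1 - q1 * d + q2 * S) + κ * (x2 - q1 * S - q2 * d))) :
    |(ε * ω * q2 + κ * q1) * S| ≤ ρ + 2 * d := by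
  have hε2 : ε ^ 2 = 1 := by rcases hε with rfl | rfl <;> norm_num
  have hu : (-ε * ω) ^ 2 + κ ^ 2 ≤ 1 ^ 2 := by
    have : (-ε * ω) ^ 2 + κ ^ 2 = 1 := by linear_combination h1 + ω ^ 2 * hε2
    rw [this]; norm_num
  have m1 : |(-ε * ω) * x1 + κ * x2| ≤ 1 * ρ := cauchy2 (by norm_num) hρ.le hu hx
  have m2 : |(-ε * ω) * q1 + κ * q2| ≤ 1 * 2 := cauchy2 (by norm_num) (by norm_num) hu (by linarith)
  have key := abs_of_two (A := ((-ε * ω) * x1 + κ * x2) - d * ((-ε * ω) * q1 + κ * q2))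
    (B := (ε * ω * q2 + κ * q1) * S) hs (by convert a1 using 1; ring) (by convert a2 using 1; ring)
  refine key.trans ((abs_sub _ _).trans ?_)
  rw [abs_mul, abs_of_nonneg hd0]
  nlinarith

/-- the second functional -/
theorem ends2 {q1 q2 x1 x2 d S ρ ε : ℝ} (hε : ε = 1 ∨ ε = -1)
    (hq' : q1 ^ 2 + q2 ^ 2 ≤ 4) (hρ : 0 < ρ) (hρ1 : ρ ≤ 1)
    (hx : x1 ^ 2 + x2 ^ 2 ≤ ρ ^ 2) (hd0 : 0 ≤ d) (hSd : S ^ 2 + d ^ 2 = 2 * d)
    (b1 : 0 ≤ ε * (2 * (x1 - q1 * d - q2 * S) + ((x1 - q1 * d - q2 * S) ^ 2 +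
      (x2 + q1 * S - q2 * d) ^ 2)))
    (b2 : 0 ≤ ε * (2 * (x1 - q1 * d + q2 * S) + ((x1 - q1 * d + q2 * S) ^ 2 +
      (x2 - q1 * S - q2 * d) ^ 2))) : |q2 * S| ≤ 2 * ρ + 10 * d := by
  have x1b : |x1| ≤ ρ := abs_le_of_sq_le_sq (by nlinarith [sq_nonneg x2]) hρ.le
  have q1b : |q1| ≤ 2 := abs_le_of_sq_le_sq (by nlinarith [sq_nonneg q2]) (by norm_num)
  have z0 : (q1 ^ 2 + q2 ^ 2) * (2 * d) ≤ 8 * d := by nlinarith
  have z1 : (x1 - q1 * d - q2 * S) ^ 2 + (x2 + q1 * S - q2 * d) ^ 2 ≤ 2 * ρ ^ 2 + 16 * d := by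
    have : (-(q1 * d) - q2 * S) ^ 2 + (q1 * S - q2 * d) ^ 2 = (q1 ^ 2 + q2 ^ 2) * (2 * d) := by
      linear_combination (q1 ^ 2 + q2 ^ 2) * hSd
    have w : (x1 - q1 * d - q2 * S) ^ 2 + (x2 + q1 * S - q2 * d) ^ 2 ≤
        2 * (x1 ^ 2 + x2 ^ 2) + 2 * ((-(q1 * d) - q2 * S) ^ 2 + (q1 * S - q2 * d) ^ 2) := by
      have e : 2 * (x1 ^ 2 + x2 ^ 2) + 2 * ((-(q1 * d) - q2 * S) ^ 2 + (q1 * S - q2 * d) ^ 2) -
        ((x1 - q1 * d - q2 * S) ^ 2 + (x2 + q1 * S - q2 * d) ^ 2) =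
        (x1 - (-(q1 * d) - q2 * S)) ^ 2 + (x2 - (q1 * S - q2 * d)) ^ 2 := by ring
      have := sq_nonneg (x1 - (-(q1 * d) - q2 * S))
      have := sq_nonneg (x2 - (q1 * S - q2 * d))
      linarith
    rw [this] at w
    linarith
  have z2 : (x1 - q1 * d + q2 * S) ^ 2 + (x2 - q1 * S - q2 * d) ^ 2 ≤ 2 * ρ ^ 2 + 16 * d := by
    have : (-(q1 * d) + q2 * S) ^ 2 + (-(q1 * S) - q2 * d) ^ 2 = (q1 ^ 2 + q2 ^ 2) * (2 * d) := by
      linear_combination (q1 ^ 2 + q2 ^ 2) * hSd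
    have w : (x1 - q1 * d + q2 * S) ^ 2 + (x2 - q1 * S - q2 * d) ^ 2 ≤
        2 * (x1 ^ 2 + x2 ^ 2) + 2 * ((-(q1 * d) + q2 * S) ^ 2 + (-(q1 * S) - q2 * d) ^ 2) := by
      have e : 2 * (x1 ^ 2 + x2 ^ 2) + 2 * ((-(q1 * d) + q2 * S) ^ 2 + (-(q1 * S) - q2 * d) ^ 2) -
        ((x1 - q1 * d + q2 * S) ^ 2 + (x2 - q1 * S - q2 * d) ^ 2) =
        (x1 - (-(q1 * d) + q2 * S)) ^ 2 + (x2 - (-(q1 * S) - q2 * d)) ^ 2 := by ring
      have := sq_nonneg (x1 - (-(q1 * d) + q2 * S))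
      have := sq_nonneg (x2 - (-(q1 * S) - q2 * d))
      linarith
    rw [this] at w
    linarith
  have hρ2 : ρ ^ 2 ≤ ρ := by nlinarith
  have hq1d : |q1 * d| ≤ 2 * d := by
    rw [abs_mul, abs_of_nonneg hd0]; nlinarith [abs_nonneg q1]
  have hq1d' := abs_le.1 hq1d
  have x1b' := abs_le.1 x1b
  have p1 : 0 ≤ (x1 - q1 * d - q2 * S) ^ 2 + (x2 + q1 * S - q2 * d) ^ 2 := by positivity
  have p3 : 0 ≤ (x1 - q1 * d + q2 * S) ^ 2 + (x2 - q1 * S - q2 * d) ^ 2 := by positivity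
  generalize (x1 - q1 * d - q2 * S) ^ 2 + (x2 + q1 * S - q2 * d) ^ 2 = A1 at *
  generalize (x1 - q1 * d + q2 * S) ^ 2 + (x2 - q1 * S - q2 * d) ^ 2 = A2 at *
  generalize q1 * d = Q at *
  generalize q2 * S = W at *
  rw [abs_le]
  rcases hε with rfl | rfl <;> constructor <;> linarith

/-- the two ends of the path cannot both be in the cusp -/
theorem ends {κ ω q1 q2 x1 x2 d S ρ ε s : ℝ} (hκ : 0 < κ) (h1 : κ ^ 2 + ω ^ 2 = 1) (hε : ε = 1 ∨ ε = -1)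
    (hs : s = 1 ∨ s = -1) (hq : 1 / 4 ≤ q1 ^ 2 + q2 ^ 2) (hq' : q1 ^ 2 + q2 ^ 2 ≤ 4) (hρ : 0 < ρ) (hρ1 : ρ ≤ 1)
    (hx : x1 ^ 2 + x2 ^ 2 ≤ ρ ^ 2) (hd0 : 0 ≤ d) (hSd : S ^ 2 + d ^ 2 = 2 * d) (hS : 0 ≤ S)
    (a1 : 0 ≤ s * (-ε * ω * (x1 - q1 * d - q2 * S) + κ * (x2 + q1 * S - q2 * d)))
    (a2 : 0 ≤ s * (-ε * ω * (x1 - q1 * d + q2 * S) + κ * (x2 - q1 * S - q2 * d)))
    (b1 : 0 ≤ ε * (2 * (x1 - q1 * d - q2 * S) + ((x1 - q1 * d - q2 * S) ^ 2 +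
      (x2 + q1 * S - q2 * d) ^ 2)))
    (b2 : 0 ≤ ε * (2 * (x1 - q1 * d + q2 * S) + ((x1 - q1 * d + q2 * S) ^ 2 +
      (x2 - q1 * S - q2 * d) ^ 2))) : κ * S ≤ 10 * ρ + 44 * d := by
  have hκ1 : κ ≤ 1 := by nlinarith [sq_nonneg ω]
  have hω : |ω| ≤ 1 := abs_le_one_iff_mul_self_le_one.2 (by nlinarith)
  have e1 := ends1 h1 hε hs hq' hρ hx hd0 a1 a2
  have e2 := ends2 hε hq' hρ hρ1 hx hd0 hSd b1 b2
  have e3 : κ * |q1| * S ≤ 3 * ρ + 12 * d := by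
    have f1 : |κ * q1 * S| ≤ |(ε * ω * q2 + κ * q1) * S| + |ε * ω * (q2 * S)| := by
      have : κ * q1 * S = (ε * ω * q2 + κ * q1) * S - ε * ω * (q2 * S) := by ring
      rw [this]; exact abs_sub _ _
    have f2 : |ε * ω * (q2 * S)| ≤ |q2 * S| := by
      rw [abs_mul, abs_mul, abs_unit hε, one_mul]
      nlinarith [abs_nonneg (q2 * S), abs_nonneg ω]
    have f3 : |κ * q1 * S| = κ * |q1| * S := by
      rw [abs_mul, abs_mul, abs_of_pos hκ, abs_of_nonneg hS]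
    rw [f3] at f1
    linarith
  have e4 : 1 / 2 ≤ |q1| + |q2| := by
    by_contra hcon
    push Not at hcon
    nlinarith [sq_abs q1, sq_abs q2, abs_nonneg q1, abs_nonneg q2, mul_nonneg (abs_nonneg q1) (abs_nonneg q2)]
  have e5 : |q2| * S ≤ 2 * ρ + 10 * d := by
    rw [abs_mul, abs_of_nonneg hS] at e2; exact e2
  have e6 : κ * (|q2| * S) ≤ 2 * ρ + 10 * d := by
    have h0 : 0 ≤ |q2| * S := by positivity
    have : κ * (|q2| * S) ≤ 1 * (|q2| * S) := mul_le_mul_of_nonneg_right hκ1 h0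
    linarith
  have e7 : κ * S * (1 / 2) ≤ κ * S * (|q1| + |q2|) :=
    mul_le_mul_of_nonneg_left e4 (by positivity)
  have e8 : κ * S * (|q1| + |q2|) = κ * |q1| * S + κ * (|q2| * S) := by ring
  linarith

/-- on the ray -/
theorem onray {κ ω ε s y1 y2 m : ℝ} (hκ : 0 < κ) (h1 : κ ^ 2 + ω ^ 2 = 1) (hε : ε = 1 ∨ ε = -1)
    (hs : s = 1 ∨ s = -1) (hm : 0 ≤ m) (hm2 : m < 2 * κ) (hy : y1 ^ 2 + y2 ^ 2 ≤ m ^ 2)
    (g1 : s * (-ε * ω * y1 + κ * y2) = 0) (g2 : 0 ≤ ε * (2 * y1 + (y1 ^ 2 + y2 ^ 2))) :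
    ∃ r ∈ Icc 0 m, y1 = r * (ε * κ) ∧ y2 = r * ω := by
  have hs0 : s ≠ 0 := by rcases hs with rfl | rfl <;> norm_num
  have hε2 : ε * ε = 1 := by rcases hε with rfl | rfl <;> norm_num
  have h2 : κ * y2 = ε * ω * y1 := by
    have := (mul_eq_zero.1 g1).resolve_left hs0
    linarith
  have e1 : y1 = (ε * κ * y1 + ω * y2) * (ε * κ) := by
    linear_combination -y1 * h1 - ε * ω * h2 + (-κ ^ 2 * y1 - ω ^ 2 * y1) * hε2
  have e2 : y2 = (ε * κ * y1 + ω * y2) * ω := by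
    linear_combination -y2 * h1 + κ * h2
  set r := ε * κ * y1 + ω * y2 with hr
  have hr2 : r ^ 2 = y1 ^ 2 + y2 ^ 2 := by
    have e3 : y1 ^ 2 + y2 ^ 2 = (r * (ε * κ)) ^ 2 + (r * ω) ^ 2 := by rw [← e1, ← e2]
    rw [e3]
    linear_combination -r ^ 2 * h1 - r ^ 2 * κ ^ 2 * hε2
  have hrm : |r| ≤ m := abs_le_of_sq_le_sq (by rw [hr2]; exact hy) hm
  have hrm' := abs_le.1 hrm
  refine ⟨r, ⟨?_, hrm'.2⟩, e1, e2⟩
  by_contra hneg
  push Not at hneg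
  rw [← hr2, e1] at g2
  rcases hε with rfl | rfl
  · nlinarith
  · nlinarith

/-- the angle of a point of the unit circle -/
theorem angle {y1 y2 : ℝ} (h2 : 2 * y1 + (y1 ^ 2 + y2 ^ 2) = 0) :
    ∃ φ : ℝ, |φ| ≤ Real.pi ∧ y1 = Real.cos φ - 1 ∧ y2 = Real.sin φ := by
  have hn : ‖((y1 + 1 : ℝ) : ℂ) + (y2 : ℝ) * Complex.I‖ = 1 := by
    have h3 : ‖((y1 + 1 : ℝ) : ℂ) + (y2 : ℝ) * Complex.I‖ ^ 2 = 1 := by
      rw [Complex.sq_norm, Complex.normSq_add_mul_I]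
      linear_combination h2
    exact (pow_eq_one_iff_of_nonneg (norm_nonneg _) two_ne_zero).1 h3
  refine ⟨Complex.arg (((y1 + 1 : ℝ) : ℂ) + (y2 : ℝ) * Complex.I), Complex.abs_arg_le_pi _, ?_, ?_⟩
  · have h4 := Complex.norm_mul_cos_arg (((y1 + 1 : ℝ) : ℂ) + (y2 : ℝ) * Complex.I)
    rw [hn, one_mul] at h4
    rw [h4]; simp
  · have h4 := Complex.norm_mul_sin_arg (((y1 + 1 : ℝ) : ℂ) + (y2 : ℝ) * Complex.I)
    rw [hn, one_mul] at h4
    rw [h4]; simp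

/-- the angle is small -/
theorem angle_small {φ m : ℝ} (hφ : |φ| ≤ Real.pi) (hm : 0 ≤ m)
    (hy : (Real.cos φ - 1) ^ 2 + Real.sin φ ^ 2 ≤ m ^ 2) : |φ| ≤ 2 * m := by
  have hb := Real.cos_le_one_sub_mul_cos_sq hφ
  have h3 : (Real.cos φ - 1) ^ 2 + Real.sin φ ^ 2 = 2 * (1 - Real.cos φ) := by
    linear_combination Real.sin_sq_add_cos_sq φ
  rw [h3] at hy
  have hpi : Real.pi ≤ 4 := Real.pi_le_four
  have hpi0 := Real.pi_pos
  have h4 : 2 / Real.pi ^ 2 * φ ^ 2 ≤ m ^ 2 / 2 := by linarith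
  have h5 : (1 : ℝ) / 8 ≤ 2 / Real.pi ^ 2 := by
    rw [le_div_iff₀ (by positivity)]
    have := mul_le_mul hpi hpi hpi0.le (by norm_num)
    nlinarith
  have h6 : 1 / 8 * φ ^ 2 ≤ 2 / Real.pi ^ 2 * φ ^ 2 := mul_le_mul_of_nonneg_right h5 (sq_nonneg _)
  refine abs_le_of_sq_le_sq (by nlinarith) (by linarith)

/-- the last inequality -/
theorem last_ineq {κ t w S C : ℝ} (hκ1 : κ ≤ 1) (ht0 : 0 < t) (ht : t ≤ κ / 5) (hw : w ≤ 1)
    (hS : t - t ^ 3 / 6 < S) (hC : 1 - C ≤ t ^ 2 / 2) (hC1 : C ≤ 1) (g : 0 ≤ w * (1 - C) + κ * -S) : False := by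
  have hκ : 0 < κ := by linarith
  have h1 : w * (1 - C) ≤ t ^ 2 / 2 := by
    have : w * (1 - C) ≤ 1 * (1 - C) := mul_le_mul_of_nonneg_right hw (by linarith)
    linarith
  have h2 : t ^ 2 ≤ 1 := by nlinarith
  have h3 : t / 2 ≤ S := by
    have : t ^ 3 ≤ t := by
      have : t * t ^ 2 ≤ t * 1 := mul_le_mul_of_nonneg_left h2 ht0.le
      nlinarith
    linarith
  have h4 : κ * (t / 2) ≤ κ * S := mul_le_mul_of_nonneg_left h3 hκ.le
  have h5 : t * t ≤ t * (κ / 5) := mul_le_mul_of_nonneg_left ht ht0.le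
  have h6 : 0 < t * κ := by positivity
  nlinarith

/-- the sign of the angle -/
theorem angle_sign {κ ω ε s φ m : ℝ} (hκ1 : κ ≤ 1) (hω : |ω| ≤ 1) (hε : ε = 1 ∨ ε = -1)
    (hs : s = 1 ∨ s = -1) (hm2 : m ≤ κ / 10) (hφ : |φ| ≤ 2 * m)
    (g1 : 0 ≤ s * (-ε * ω * (Real.cos φ - 1) + κ * Real.sin φ)) : 0 ≤ s * φ := by
  by_contra hneg
  push Not at hneg
  have h7 : |s * φ| = |φ| := by rw [abs_mul, abs_unit hs, one_mul]
  have htφ : -(s * φ) = |φ| := by rw [← h7, abs_of_neg hneg]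
  obtain ⟨t, ht⟩ : ∃ t, t = -(s * φ) := ⟨_, rfl⟩
  rw [← ht] at htφ
  have ht0 : 0 < t := by rw [ht]; linarith
  have h8 : s * Real.sin φ = -Real.sin t := by
    rcases hs with rfl | rfl
    · rw [ht, one_mul, one_mul, Real.sin_neg, neg_neg]
    · rw [ht]; simp
  have h9 : s * (-ε * ω * (Real.cos φ - 1) + κ * Real.sin φ) =
      (s * ε * ω) * (1 - Real.cos φ) + κ * (s * Real.sin φ) := by ring
  rw [h9, h8] at g1
  have h11 : s * ε * ω ≤ 1 := by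
    have h12 : |s * ε * ω| ≤ 1 := by
      rw [abs_mul, abs_mul, abs_unit hs, abs_unit hε, one_mul, one_mul]; exact hω
    exact (abs_le.1 h12).2
  have hcos : 1 - Real.cos φ ≤ t ^ 2 / 2 := by
    have h13 := Real.one_sub_sq_div_two_le_cos (x := φ)
    rw [htφ, sq_abs]; linarith
  exact last_ineq hκ1 ht0 (by rw [htφ]; linarith) h11 (Real.sin_gt_sub_cube ht0) hcos (Real.cos_le_one φ) g1

/-- on the arc -/
theorem onarc {κ ω ε s y1 y2 m t1 : ℝ} (hκ : 0 < κ) (h1 : κ ^ 2 + ω ^ 2 = 1) (hε : ε = 1 ∨ ε = -1)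
    (hs : s = 1 ∨ s = -1) (hm : 0 ≤ m) (hm2 : m ≤ κ / 10) (hmt : 2 * m ≤ t1) (hy : y1 ^ 2 + y2 ^ 2 ≤ m ^ 2)
    (g1 : 0 ≤ s * (-ε * ω * y1 + κ * y2)) (g2 : ε * (2 * y1 + (y1 ^ 2 + y2 ^ 2)) = 0) :
    ∃ t ∈ Icc 0 t1, y1 = Real.cos t - 1 ∧ y2 = s * Real.sin t := by
  have hε0 : ε ≠ 0 := by rcases hε with rfl | rfl <;> norm_num
  have h2 : 2 * y1 + (y1 ^ 2 + y2 ^ 2) = 0 := (mul_eq_zero.1 g2).resolve_left hε0
  have hκ1 : κ ≤ 1 := by nlinarith [sq_nonneg ω]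
  have hω : |ω| ≤ 1 := abs_le_one_iff_mul_self_le_one.2 (by nlinarith)
  obtain ⟨φ, hφ, hφ1, hφ2⟩ := angle h2
  rw [hφ1, hφ2] at hy g1
  have hφm := angle_small hφ hm hy
  have hsφ := angle_sign hκ1 hω hε hs hm2 hφm g1
  refine ⟨s * φ, ⟨hsφ, ?_⟩, ?_, ?_⟩
  · have h7 : |s * φ| = |φ| := by rw [abs_mul, abs_unit hs, one_mul]
    rw [abs_of_nonneg hsφ] at h7
    rw [h7]; linarith
  · rw [hφ1]
    rcases hs with rfl | rfl
    · rw [one_mul]
    · rw [neg_one_mul, Real.cos_neg]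
  · rw [hφ2]
    rcases hs with rfl | rfl
    · rw [one_mul, one_mul]
    · rw [neg_one_mul φ, Real.sin_neg, neg_one_mul, neg_neg]

/-- one end of the path is outside -/
theorem end_out {κ ω q1 q2 x1 x2 s0 ε s : ℝ} (hκ : 0 < κ) (h1 : κ ^ 2 + ω ^ 2 = 1) (hε : ε = 1 ∨ ε = -1)
    (hs : s = 1 ∨ s = -1) (hq : 1 / 4 ≤ q1 ^ 2 + q2 ^ 2) (hq' : q1 ^ 2 + q2 ^ 2 ≤ 4) (b0 : 0 < s0)
    (b1 : s0 ≤ κ / 100) (hx : x1 ^ 2 + x2 ^ 2 ≤ (s0 ^ 2) ^ 2)
    (a1 : 0 ≤ s * (-ε * ω * (x1 - q1 * (1 - Real.cos s0) - q2 * Real.sin s0) +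
      κ * (x2 + q1 * Real.sin s0 - q2 * (1 - Real.cos s0))))
    (a2 : 0 ≤ s * (-ε * ω * (x1 - q1 * (1 - Real.cos s0) + q2 * Real.sin s0) +
      κ * (x2 - q1 * Real.sin s0 - q2 * (1 - Real.cos s0))))
    (c1 : 0 ≤ ε * (2 * (x1 - q1 * (1 - Real.cos s0) - q2 * Real.sin s0) +
      ((x1 - q1 * (1 - Real.cos s0) - q2 * Real.sin s0) ^ 2 +
      (x2 + q1 * Real.sin s0 - q2 * (1 - Real.cos s0)) ^ 2)))
    (c2 : 0 ≤ ε * (2 * (x1 - q1 * (1 - Real.cos s0) + q2 * Real.sin s0) +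
      ((x1 - q1 * (1 - Real.cos s0) + q2 * Real.sin s0) ^ 2 +
      (x2 - q1 * Real.sin s0 - q2 * (1 - Real.cos s0)) ^ 2))) : False := by
  have hκ1 : κ ≤ 1 := by nlinarith [sq_nonneg ω]
  have b4 : s0 ≤ 1 / 100 := by linarith
  have hρ1 : s0 ^ 2 ≤ 1 := by nlinarith
  have hS : 0 ≤ Real.sin s0 := Real.sin_nonneg_of_nonneg_of_le_pi b0.le (by linarith [Real.pi_gt_three])
  have hd : 0 ≤ 1 - Real.cos s0 := by linarith [Real.cos_le_one s0]
  have h3 := ends hκ h1 hε hs hq hq' (by positivity) hρ1 hx hd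
    (by linear_combination Real.sin_sq_add_cos_sq s0) hS a1 a2 c1 c2
  have h4 := Real.sin_gt_sub_cube b0
  have h5 := Real.one_sub_sq_div_two_le_cos (x := s0)
  have h6 : s0 ^ 3 / 6 ≤ s0 * (1 / 100) := by
    have : s0 ^ 2 ≤ 1 / 100 := by nlinarith
    nlinarith
  have h7 : κ * (s0 * (99 / 100)) ≤ κ * Real.sin s0 := by
    apply mul_le_mul_of_nonneg_left _ hκ.le; linarith
  have h8 : s0 * s0 ≤ s0 * (κ / 100) := mul_le_mul_of_nonneg_left b1 b0.le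
  have h9 : 0 < s0 * κ := by positivity
  have h10 : s0 ^ 2 = s0 * s0 := sq s0
  linarith

/-- the size of the points of the path -/
theorem size {q1 q2 x1 x2 s0 τ : ℝ} (hq' : q1 ^ 2 + q2 ^ 2 ≤ 4) (b0 : 0 < s0) (b4 : s0 ≤ 1 / 100)
    (hx : x1 ^ 2 + x2 ^ 2 ≤ (s0 ^ 2) ^ 2) (hτ : |τ| ≤ s0) :
    (x1 - q1 * (1 - Real.cos τ) - q2 * Real.sin τ) ^ 2 + (x2 + q1 * Real.sin τ - q2 * (1 - Real.cos τ)) ^ 2 ≤
      (3 * s0) ^ 2 := by
  have h3 : (-(q1 * (1 - Real.cos τ)) - q2 * Real.sin τ) ^ 2 + (q1 * Real.sin τ - q2 * (1 - Real.cos τ)) ^ 2 =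
      (q1 ^ 2 + q2 ^ 2) * (2 * (1 - Real.cos τ)) := by
    linear_combination (q1 ^ 2 + q2 ^ 2) * Real.sin_sq_add_cos_sq τ
  have h4 : 2 * (1 - Real.cos τ) ≤ s0 ^ 2 := by
    have h5 := Real.one_sub_sq_div_two_le_cos (x := τ)
    have h6 : τ ^ 2 ≤ s0 ^ 2 := by rw [← sq_abs τ]; exact pow_le_pow_left₀ (abs_nonneg _) hτ 2
    linarith
  have h5 : (q1 ^ 2 + q2 ^ 2) * (2 * (1 - Real.cos τ)) ≤ 4 * s0 ^ 2 :=
    mul_le_mul hq' h4 (by linarith [Real.cos_le_one τ]) (by norm_num)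
  have h6 : (x1 - q1 * (1 - Real.cos τ) - q2 * Real.sin τ) ^ 2 +
      (x2 + q1 * Real.sin τ - q2 * (1 - Real.cos τ)) ^ 2 ≤ 2 * (x1 ^ 2 + x2 ^ 2) +
      2 * ((-(q1 * (1 - Real.cos τ)) - q2 * Real.sin τ) ^ 2 +
        (q1 * Real.sin τ - q2 * (1 - Real.cos τ)) ^ 2) := by
    have e : 2 * (x1 ^ 2 + x2 ^ 2) + 2 * ((-(q1 * (1 - Real.cos τ)) - q2 * Real.sin τ) ^ 2 +
        (q1 * Real.sin τ - q2 * (1 - Real.cos τ)) ^ 2) - ((x1 - q1 * (1 - Real.cos τ) - q2 * Real.sin τ) ^ 2 +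
        (x2 + q1 * Real.sin τ - q2 * (1 - Real.cos τ)) ^ 2) =
        (x1 - (-(q1 * (1 - Real.cos τ)) - q2 * Real.sin τ)) ^ 2 +
          (x2 - (q1 * Real.sin τ - q2 * (1 - Real.cos τ))) ^ 2 := by ring
    have := sq_nonneg (x1 - (-(q1 * (1 - Real.cos τ)) - q2 * Real.sin τ))
    have := sq_nonneg (x2 - (q1 * Real.sin τ - q2 * (1 - Real.cos τ)))
    linarith
  rw [h3] at h6
  have h7 : x1 ^ 2 + x2 ^ 2 ≤ s0 ^ 2 * (1 / 100) := by
    refine hx.trans ?_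
    have : s0 ^ 2 ≤ 1 / 100 := by nlinarith
    nlinarith [sq_nonneg s0]
  have h8 : (3 * s0) ^ 2 = 9 * s0 ^ 2 := by ring
  have h9 := sq_nonneg s0
  linarith

/-- intermediate value on both sides of `0` -/
theorem ivt_min {F1 F2 : ℝ → ℝ} (hF1 : Continuous F1) (hF2 : Continuous F2) {s0 : ℝ} (b0 : 0 < s0)
    (h1 : 0 < F1 0) (h2 : 0 < F2 0)
    (h3 : 0 ≤ F1 s0 → 0 ≤ F1 (-s0) → 0 ≤ F2 s0 → 0 ≤ F2 (-s0) → False) :
    ∃ τ : ℝ, |τ| ≤ s0 ∧ ((F1 τ = 0 ∧ 0 ≤ F2 τ) ∨ (F2 τ = 0 ∧ 0 ≤ F1 τ)) := by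
  obtain ⟨σ, hσ, hσF⟩ : ∃ σ : ℝ, |σ| ≤ s0 ∧ min (F1 σ) (F2 σ) < 0 := by
    by_contra hcon
    push Not at hcon
    have c1 := le_min_iff.1 (hcon s0 (by rw [abs_of_pos b0]))
    have c2 := le_min_iff.1 (hcon (-s0) (by rw [abs_neg, abs_of_pos b0]))
    exact h3 c1.1 c2.1 c1.2 c2.2
  have hF0 : 0 < min (F1 0) (F2 0) := lt_min h1 h2
  have hcont : ContinuousOn (fun τ => min (F1 τ) (F2 τ)) (uIcc 0 σ) := (hF1.min hF2).continuousOn
  obtain ⟨τ, hτ, hτ0⟩ := intermediate_value_uIcc hcont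
    (show (0 : ℝ) ∈ uIcc (min (F1 0) (F2 0)) (min (F1 σ) (F2 σ)) by
      rw [uIcc_of_ge (by linarith)]; exact ⟨hσF.le, hF0.le⟩)
  have hτ0 : min (F1 τ) (F2 τ) = 0 := hτ0
  refine ⟨τ, ?_, ?_⟩
  · have h4 := abs_le.1 hσ
    rcases le_total 0 σ with h5 | h5
    · rw [uIcc_of_le h5] at hτ
      rw [abs_le]; constructor <;> linarith [hτ.1, hτ.2]
    · rw [uIcc_of_ge h5] at hτ
      rw [abs_le]; constructor <;> linarith [hτ.1, hτ.2]
  · rcases min_choice (F1 τ) (F2 τ) with h4 | h4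
    · exact Or.inl ⟨by rw [← h4]; exact hτ0, by rw [← hτ0]; exact min_le_right _ _⟩
    · exact Or.inr ⟨by rw [← h4]; exact hτ0, by rw [← hτ0]; exact min_le_left _ _⟩

/-- **the circle meets the ray or the arc**, coordinates -/
theorem hit0 {κ ω ε s : ℝ} (hκ : 0 < κ) (h1 : κ ^ 2 + ω ^ 2 = 1) (hε : ε = 1 ∨ ε = -1)
    (hs : s = 1 ∨ s = -1) {r1 t1 : ℝ} (hr1 : 0 < r1) (ht1 : 0 < t1) :
    ∃ ρ > 0, ∀ x1 x2 : ℝ, x1 ^ 2 + x2 ^ 2 ≤ ρ ^ 2 → 0 < s * (-ε * ω * x1 + κ * x2) →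
      0 < ε * (2 * x1 + (x1 ^ 2 + x2 ^ 2)) → ∀ q1 q2 : ℝ, 1 / 4 ≤ q1 ^ 2 + q2 ^ 2 →
      q1 ^ 2 + q2 ^ 2 ≤ 4 → ∃ y1 y2 : ℝ,
        (y1 - (x1 - q1)) ^ 2 + (y2 - (x2 - q2)) ^ 2 = q1 ^ 2 + q2 ^ 2 ∧
        ((∃ r ∈ Icc 0 r1, y1 = r * (ε * κ) ∧ y2 = r * ω) ∨
          ∃ t ∈ Icc 0 t1, y1 = Real.cos t - 1 ∧ y2 = s * Real.sin t) := by
  have hκ1 : κ ≤ 1 := by nlinarith [sq_nonneg ω]
  obtain ⟨s0, b0, b1, b2, b3⟩ : ∃ s0 : ℝ, 0 < s0 ∧ s0 ≤ κ / 100 ∧ s0 ≤ r1 / 3 ∧ s0 ≤ t1 / 6 :=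
    ⟨min (min (κ / 100) (r1 / 3)) (t1 / 6), by positivity, (min_le_left _ _).trans (min_le_left _ _),
      (min_le_left _ _).trans (min_le_right _ _), min_le_right _ _⟩
  have b4 : s0 ≤ 1 / 100 := by linarith
  refine ⟨s0 ^ 2, by positivity, fun x1 x2 hx g1 g2 q1 q2 hq hq' => ?_⟩
  obtain ⟨τ, hτ, h3⟩ := ivt_min
    (F1 := fun τ => s * (-ε * ω * (x1 - q1 * (1 - Real.cos τ) - q2 * Real.sin τ) +
      κ * (x2 + q1 * Real.sin τ - q2 * (1 - Real.cos τ))))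
    (F2 := fun τ => ε * (2 * (x1 - q1 * (1 - Real.cos τ) - q2 * Real.sin τ) +
      ((x1 - q1 * (1 - Real.cos τ) - q2 * Real.sin τ) ^ 2 +
      (x2 + q1 * Real.sin τ - q2 * (1 - Real.cos τ)) ^ 2))) (by fun_prop) (by fun_prop) b0
    (by simpa using g1) (by simpa using g2) (fun f1 f2 f3 f4 => by
      simp only [Real.cos_neg, Real.sin_neg, mul_neg, sub_neg_eq_add, ← sub_eq_add_neg] at f2 f4
      exact end_out hκ h1 hε hs hq hq' b0 b1 hx f1 f2 f3 f4)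
  have hsz := size hq' b0 b4 hx hτ
  refine ⟨x1 - q1 * (1 - Real.cos τ) - q2 * Real.sin τ, x2 + q1 * Real.sin τ - q2 * (1 - Real.cos τ), ?_, ?_⟩
  · linear_combination (q1 ^ 2 + q2 ^ 2) * Real.sin_sq_add_cos_sq τ
  · rcases h3 with ⟨h4, h5⟩ | ⟨h4, h5⟩
    · left
      obtain ⟨r, hr, e1, e2⟩ := onray (m := 3 * s0) hκ h1 hε hs (by positivity) (by linarith) hsz h4 h5
      exact ⟨r, ⟨hr.1, by linarith [hr.2]⟩, e1, e2⟩
    · right
      exact onarc (m := 3 * s0) hκ h1 hε hs (by positivity) (by linarith) (by linarith) hsz h5 h4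

/-- **the circle meets the ray or the arc** -/
theorem hit {z V u : ℂ} {ε s r1 t1 : ℝ} (hV : dist V z = 1) (hu : ‖u‖ = 1) (hε : ε = 1 ∨ ε = -1)
    (hs : s = 1 ∨ s = -1) (hκ : 0 < ε * ip u (V - z)) (hr1 : 0 < r1) (ht1 : 0 < t1) :
    ∃ ρ > 0, ∀ x : ℂ, dist x V < ρ → 0 < s * (ε * cr u (x - V)) → 0 < ε * (dist x z ^ 2 - 1) →
      ∀ p : ℂ, 1 / 2 ≤ dist x p → dist x p ≤ 2 → ∃ y : ℂ, dist y p = dist x p ∧
        ((∃ r ∈ Icc 0 r1, y = V + (r : ℝ) * u) ∨ ∃ t ∈ Icc 0 t1, y = z + (V - z) * cis (s * t)) := by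
  have hN : (V - z).re ^ 2 + (V - z).im ^ 2 = 1 := ip_sq (by rw [← dist_eq_norm]; exact hV)
  have hU := ip_sq hu
  have hε2 : ε * ε = 1 := by rcases hε with rfl | rfl <;> norm_num
  have hzV : z = V - (V - z) := by ring
  generalize V - z = N at *
  obtain ⟨ρ, hρ, h⟩ := hit0 (κ := ε * ip u N) (ω := N.re * u.im - N.im * u.re) (ε := ε) (s := s) hκ
    (by
      simp only [ip]
      linear_combination (u.re * N.re + u.im * N.im) ^ 2 * hε2 + (u.re ^ 2 + u.im ^ 2) * hN + hU) hε hs hr1 ht1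
  refine ⟨ρ, hρ, fun x hx g1 g2 p hp hp' => ?_⟩
  have hxV : (x - V).re ^ 2 + (x - V).im ^ 2 = dist x V ^ 2 := by
    rw [sq_dist]; simp
  have hxp : (x - p).re ^ 2 + (x - p).im ^ 2 = dist x p ^ 2 := by
    rw [sq_dist]; simp
  have hxz : dist x z ^ 2 = (x - V).re ^ 2 + (x - V).im ^ 2 + 2 * ((x - V).re * N.re + (x - V).im * N.im) + 1 := by
    rw [hzV, sq_dist]; simp
    linear_combination hN
  obtain ⟨y1, y2, hy, hy'⟩ := h (N.re * (x - V).re + N.im * (x - V).im) (N.re * (x - V).im - N.im * (x - V).re)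
    (by
      have e : (N.re * (x - V).re + N.im * (x - V).im) ^ 2 + (N.re * (x - V).im - N.im * (x - V).re) ^ 2 =
          dist x V ^ 2 := by
        linear_combination hxV + ((x - V).re ^ 2 + (x - V).im ^ 2) * hN
      rw [e]; exact pow_le_pow_left₀ dist_nonneg hx.le 2)
    (by
      have e : s * (-ε * (N.re * u.im - N.im * u.re) * (N.re * (x - V).re + N.im * (x - V).im) +
          ε * ip u N * (N.re * (x - V).im - N.im * (x - V).re)) = s * (ε * cr u (x - V)) := by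
        simp only [ip, cr]
        linear_combination s * ε * (u.re * (x - V).im - u.im * (x - V).re) * hN
      rw [e]; exact g1)
    (by
      have e : ε * (2 * (N.re * (x - V).re + N.im * (x - V).im) + ((N.re * (x - V).re + N.im * (x - V).im) ^ 2 +
          (N.re * (x - V).im - N.im * (x - V).re) ^ 2)) = ε * (dist x z ^ 2 - 1) := by
        rw [hxz]
        linear_combination ε * ((x - V).re ^ 2 + (x - V).im ^ 2) * hN
      rw [e]; exact g2)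
    (N.re * (x - p).re + N.im * (x - p).im) (N.re * (x - p).im - N.im * (x - p).re)
    (by
      have e : (N.re * (x - p).re + N.im * (x - p).im) ^ 2 + (N.re * (x - p).im - N.im * (x - p).re) ^ 2 =
          dist x p ^ 2 := by
        linear_combination hxp + ((x - p).re ^ 2 + (x - p).im ^ 2) * hN
      rw [e]; nlinarith)
    (by
      have e : (N.re * (x - p).re + N.im * (x - p).im) ^ 2 + (N.re * (x - p).im - N.im * (x - p).re) ^ 2 =
          dist x p ^ 2 := by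
        linear_combination hxp + ((x - p).re ^ 2 + (x - p).im ^ 2) * hN
      rw [e]; nlinarith)
  refine ⟨V + N * (y1 + y2 * Complex.I), ?_, ?_⟩
  · have e : dist (V + N * (y1 + y2 * Complex.I)) p ^ 2 = dist x p ^ 2 := by
      rw [sq_dist, sq_dist]
      simp
      simp at hy
      linear_combination hy + (y1 ^ 2 + y2 ^ 2 - ((p.re - V.re) ^ 2 + (p.im - V.im) ^ 2) +
        ((x.re - p.re) ^ 2 + (x.im - p.im) ^ 2)) * hN
    exact (sq_eq_sq₀ dist_nonneg dist_nonneg).1 e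
  · rcases hy' with ⟨r, hr, e1, e2⟩ | ⟨t, ht, e1, e2⟩
    · refine Or.inl ⟨r, hr, ?_⟩
      rw [e1, e2]
      apply Complex.ext
      · simp [ip]
        linear_combination r * u.re * hN + (r * N.re * (u.re * N.re + u.im * N.im)) * hε2
      · simp [ip]
        linear_combination r * u.im * hN + (r * N.im * (u.re * N.re + u.im * N.im)) * hε2
    · refine Or.inr ⟨t, ht, ?_⟩
      have hc : Real.cos (s * t) = Real.cos t := by
        rcases hs with rfl | rfl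
        · rw [one_mul]
        · rw [neg_one_mul, Real.cos_neg]
      have hc' : Real.sin (s * t) = s * Real.sin t := by
        rcases hs with rfl | rfl
        · rw [one_mul, one_mul]
        · rw [neg_one_mul, Real.sin_neg, neg_one_mul]
      have hcis : cis (s * t) = (Real.cos t : ℂ) + ((s * Real.sin t : ℝ) : ℂ) * Complex.I := by
        apply Complex.ext
        · simp [cis_re, hc, -Complex.ofReal_cos, -Complex.ofReal_sin]
        · simp [cis_im, hc', -Complex.ofReal_cos, -Complex.ofReal_sin]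
      rw [hcis, e1, e2]
      simp only [Complex.ofReal_sub, Complex.ofReal_one]
      linear_combination (-1 : ℂ) * (by rw [hzV] : z = V - N)

/-- the norm of a vector from two components -/
theorem norm_le {p q : ℂ} (hp : ‖p‖ = 1) (hq : ‖q‖ = 1) (X : ℂ) :
    |cr p q| * ‖X‖ ≤ |ip p X| + |ip q X| := by
  have hp2 := ip_sq hp
  have hq2 := ip_sq hq
  have hX2 : X.re ^ 2 + X.im ^ 2 = ‖X‖ ^ 2 := by
    rw [Complex.sq_norm, Complex.normSq_apply]; ring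
  refine (abs_le_of_sq_le_sq' ?_ (by positivity)).2
  have e : (|cr p q| * ‖X‖) ^ 2 = ip p X ^ 2 + ip q X ^ 2 - 2 * (ip p q) * (ip p X * ip q X) := by
    rw [mul_pow, sq_abs, ← hX2]
    simp only [ip, cr]
    linear_combination ((q.re * X.re + q.im * X.im) ^ 2) * hp2 + ((p.re * X.re + p.im * X.im) ^ 2) * hq2
  rw [e]
  have h1 : |ip p q| ≤ 1 := by
    refine abs_le_of_sq_le_sq ?_ (by norm_num)
    have : ip p q ^ 2 + cr p q ^ 2 = 1 := by
      simp only [ip, cr]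
      linear_combination (q.re ^ 2 + q.im ^ 2) * hp2 + hq2
    nlinarith [sq_nonneg (cr p q)]
  have h2 : |ip p q * (ip p X * ip q X)| ≤ |ip p X| * |ip q X| := by
    rw [abs_mul, abs_mul]
    have := mul_nonneg (abs_nonneg (ip p X)) (abs_nonneg (ip q X))
    nlinarith
  have h3 := neg_abs_le (ip p q * (ip p X * ip q X))
  have h4 := sq_abs (ip p X)
  have h5 := sq_abs (ip q X)
  nlinarith

/-- a small vector with two second order small components is zero -/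
theorem small_zero {p q : ℂ} (hp : ‖p‖ = 1) (hq : ‖q‖ = 1) {X : ℂ} (hX : ‖X‖ < |cr p q|)
    (g1 : |2 * ip p X| ≤ ‖X‖ ^ 2) (g2 : |2 * ip q X| ≤ ‖X‖ ^ 2) : X = 0 := by
  by_contra h0
  have hX0 : 0 < ‖X‖ := norm_pos_iff.2 h0
  have key := norm_le hp hq X
  rw [abs_mul, abs_two] at g1 g2
  have f7 : ‖X‖ * ‖X‖ < ‖X‖ * |cr p q| := mul_lt_mul_of_pos_left hX hX0
  nlinarith

/-- linear algebra: the sum of two functionals -/
theorem lin {p q : ℂ} (hp : ‖p‖ = 1) (hq : ‖q‖ = 1) (hpq : cr p q ≠ 0) {α β : ℝ} (hα : 0 < α) (hβ : 0 < β) :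
    ∃ ρ > 0, ∀ X : ℂ, X ≠ 0 → ‖X‖ < ρ → -‖X‖ ^ 2 ≤ ip p X → -‖X‖ ^ 2 ≤ ip q X →
      0 < α * ip p X + β * ip q X := by
  have hc : 0 < |cr p q| := abs_pos.2 hpq
  obtain ⟨μ, hμ0, hμα, hμβ⟩ : ∃ μ : ℝ, 0 < μ ∧ μ ≤ α ∧ μ ≤ β := ⟨min α β, lt_min hα hβ, min_le_left _ _, min_le_right _ _⟩
  refine ⟨μ * |cr p q| / (2 * (α + β)), by positivity, fun X hX hXρ g1 g2 => ?_⟩
  have hX0 : 0 < ‖X‖ := norm_pos_iff.2 hX
  have key := norm_le hp hq X
  have f1 : |ip p X| ≤ ip p X + 2 * ‖X‖ ^ 2 := by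
    rw [abs_le]; constructor <;> nlinarith [sq_nonneg ‖X‖]
  have f2 : |ip q X| ≤ ip q X + 2 * ‖X‖ ^ 2 := by
    rw [abs_le]; constructor <;> nlinarith [sq_nonneg ‖X‖]
  have f3 : μ * |ip p X| ≤ α * (ip p X + 2 * ‖X‖ ^ 2) :=
    mul_le_mul hμα f1 (abs_nonneg _) hα.le
  have f4 : μ * |ip q X| ≤ β * (ip q X + 2 * ‖X‖ ^ 2) :=
    mul_le_mul hμβ f2 (abs_nonneg _) hβ.le
  have f5 : μ * (|cr p q| * ‖X‖) ≤ μ * (|ip p X| + |ip q X|) := mul_le_mul_of_nonneg_left key hμ0.le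
  have f6 : ‖X‖ * (2 * (α + β)) < μ * |cr p q| := by
    rwa [lt_div_iff₀ (by positivity)] at hXρ
  have f7 : ‖X‖ * (‖X‖ * (2 * (α + β))) < ‖X‖ * (μ * |cr p q|) := mul_lt_mul_of_pos_left f6 hX0
  nlinarith

/-- rotation towards `N` -/
theorem rot {N : ℂ} {t0 lam ε η : ℝ} (hc : cr N (cis t0) ≠ 0) (hl : lam = 1 ∨ lam = -1)
    (hε : ε = 1 ∨ ε = -1) (hη : 0 < η) : ∃ τ : ℝ, |τ| < η ∧ ∃ α : ℝ, 0 < α ∧ ∃ β : ℝ, 0 < β ∧
      (lam : ℂ) * cis (t0 + τ) = (α : ℂ) * ((lam : ℂ) * cis t0) + (β : ℂ) * ((ε : ℂ) * N) := by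
  obtain ⟨B, hB⟩ : ∃ B, B = -cr N (cis t0) := ⟨_, rfl⟩
  obtain ⟨A, hA⟩ : ∃ A, A = ip N (cis t0) := ⟨_, rfl⟩
  have hB0 : B ≠ 0 := by rw [hB]; exact neg_ne_zero.2 hc
  obtain ⟨sB, hsB, hsBB⟩ : ∃ sB : ℝ, (sB = 1 ∨ sB = -1) ∧ 0 < sB / B := by
    rcases lt_or_gt_of_ne hB0 with h | h
    · exact ⟨-1, Or.inr rfl, div_pos_of_neg_of_neg (by norm_num) h⟩
    · exact ⟨1, Or.inl rfl, by positivity⟩
  have hcont : Continuous fun τ : ℝ => Real.cos τ - Real.sin τ * (A / B) := by fun_prop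
  have hev : ∀ᶠ τ : ℝ in 𝓝 0, 0 < Real.cos τ - Real.sin τ * (A / B) := by
    refine (hcont.tendsto 0).eventually (lt_mem_nhds ?_)
    simp
  obtain ⟨δ, hδ, hd⟩ := Metric.eventually_nhds_iff.1 hev
  obtain ⟨r, hr0, hrη, hrδ, hr1⟩ : ∃ r : ℝ, 0 < r ∧ r < η ∧ r < δ ∧ r ≤ 1 :=
    ⟨min (min (η / 2) (δ / 2)) 1, by positivity,
      lt_of_le_of_lt ((min_le_left _ _).trans (min_le_left _ _)) (by linarith),
      lt_of_le_of_lt ((min_le_left _ _).trans (min_le_right _ _)) (by linarith), min_le_right _ _⟩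
  obtain ⟨σ, hσ, hσe⟩ : ∃ σ : ℝ, (σ = 1 ∨ σ = -1) ∧ σ = lam * ε * sB := by
    rcases hl with rfl | rfl <;> rcases hε with rfl | rfl <;> rcases hsB with rfl | rfl <;> norm_num
  have hsin : 0 < Real.sin r := Real.sin_pos_of_pos_of_lt_pi hr0 (by linarith [Real.pi_gt_three])
  have habs : |σ * r| = r := by rw [abs_mul, abs_unit hσ, one_mul, abs_of_pos hr0]
  have hsσ : Real.sin (σ * r) = σ * Real.sin r := by
    rcases hσ with h | h
    · rw [h, one_mul, one_mul]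
    · rw [h, neg_one_mul, Real.sin_neg, neg_one_mul]
  refine ⟨σ * r, by rw [habs]; exact hrη, Real.cos (σ * r) - Real.sin (σ * r) * (A / B),
    hd (by rw [Real.dist_eq, sub_zero, habs]; exact hrδ), Real.sin r * (sB / B), by positivity, ?_⟩
  have hl2 : lam * lam = 1 := by rcases hl with rfl | rfl <;> norm_num
  have hε2 : ε * ε = 1 := by rcases hε with rfl | rfl <;> norm_num
  have hm := Real.sin_sq_add_cos_sq t0
  have e0 : B = N.im * Real.cos t0 - N.re * Real.sin t0 := by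
    rw [hB]; simp only [cr, cis_re, cis_im]; ring
  have e0' : A = N.re * Real.cos t0 + N.im * Real.sin t0 := by
    rw [hA]; simp only [ip, cis_re, cis_im]
  have e1 : N.re = A * Real.cos t0 - B * Real.sin t0 := by
    rw [e0, e0']; linear_combination -N.re * hm
  have e2 : N.im = A * Real.sin t0 + B * Real.cos t0 := by
    rw [e0, e0']; linear_combination -N.im * hm
  apply Complex.ext
  · simp only [Complex.add_re, Complex.mul_re, Complex.ofReal_re, Complex.ofReal_im, cis_re, zero_mul, sub_zero]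
    rw [Real.cos_add, hsσ, e1, hσe]
    field_simp
    linear_combination (ε * sB * Real.sin r * (A * Real.cos t0 - B * Real.sin t0)) * hl2
  · simp only [Complex.add_im, Complex.mul_im, Complex.ofReal_re, Complex.ofReal_im, cis_im, zero_mul, add_zero]
    rw [Real.sin_add, hsσ, e2, hσe]
    field_simp
    linear_combination (ε * sB * Real.sin r * (A * Real.sin t0 + B * Real.cos t0)) * hl2

/-- the ray of the right direction -/
theorem turn {z V : ℂ} {t0 s lam ε η : ℝ} (hV : dist V z = 1) (hs : s = 1 ∨ s = -1) (hl : lam = 1 ∨ lam = -1)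
    (hε : ε = 1 ∨ ε = -1) (hη : 0 < η) (hc : 0 < lam * (s * cr (V - z) (cis t0))) :
    ∃ t1 σ : ℝ, |t1 - t0| < η ∧ (σ = 1 ∨ σ = -1) ∧ 0 < ε * ip (σ * (Complex.I * cis t1)) (V - z) ∧
      ∀ᶠ x in 𝓝 V, x ≠ V → -‖x - V‖ ^ 2 ≤ lam * ip (cis t0) (x - V) → 0 ≤ ε * (dist x z ^ 2 - 1) →
        0 < s * (ε * cr (σ * (Complex.I * cis t1)) (x - V)) := by
  have hN1 : ‖V - z‖ = 1 := by rw [← dist_eq_norm]; exact hV
  have hN := ip_sq hN1
  have hs2 : s * s = 1 := by rcases hs with rfl | rfl <;> norm_num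
  have hl2 : lam * lam = 1 := by rcases hl with rfl | rfl <;> norm_num
  have hε2 : ε * ε = 1 := by rcases hε with rfl | rfl <;> norm_num
  have hc0 : cr (V - z) (cis t0) ≠ 0 := by
    intro h0; rw [h0] at hc; simp at hc
  obtain ⟨τ, hτ, α, hα, β, hβ, hrel⟩ := rot (ε := ε) hc0 hl hε hη
  obtain ⟨σ, hσ, hσe⟩ : ∃ σ : ℝ, (σ = 1 ∨ σ = -1) ∧ σ = -(ε * lam * s) := by
    rcases hl with rfl | rfl <;> rcases hε with rfl | rfl <;> rcases hs with rfl | rfl <;> norm_num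
  have hre : lam * (cis (t0 + τ)).re = α * (lam * (cis t0).re) + β * (ε * (V - z).re) := by
    have := congrArg Complex.re hrel
    simpa using this
  have him : lam * (cis (t0 + τ)).im = α * (lam * (cis t0).im) + β * (ε * (V - z).im) := by
    have := congrArg Complex.im hrel
    simpa using this
  have hm1 : ‖(lam : ℂ) * cis t0‖ = 1 := by
    rw [norm_mul, norm_cis, mul_one, Complex.norm_real, Real.norm_eq_abs, abs_unit hl]
  have hq1 : ‖(ε : ℂ) * (V - z)‖ = 1 := by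
    rw [norm_mul, hN1, mul_one, Complex.norm_real, Real.norm_eq_abs, abs_unit hε]
  have hpq : cr ((lam : ℂ) * cis t0) ((ε : ℂ) * (V - z)) ≠ 0 := by
    have e : cr ((lam : ℂ) * cis t0) ((ε : ℂ) * (V - z)) = -(lam * ε) * cr (V - z) (cis t0) := by
      simp only [cr, Complex.mul_re, Complex.mul_im, Complex.ofReal_re, Complex.ofReal_im, zero_mul, sub_zero,
        add_zero]
      ring
    rw [e]
    refine mul_ne_zero ?_ hc0
    rcases hl with rfl | rfl <;> rcases hε with rfl | rfl <;> norm_num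
  obtain ⟨ρ, hρ, hlin⟩ := lin hm1 hq1 hpq hα hβ
  refine ⟨t0 + τ, σ, by rw [add_sub_cancel_left]; exact hτ, hσ, ?_, ?_⟩
  · have e : ε * ip (σ * (Complex.I * cis (t0 + τ))) (V - z) = α * (lam * (s * cr (V - z) (cis t0))) := by
      rw [hσe]
      simp only [ip, cr, Complex.mul_re, Complex.mul_im, Complex.ofReal_re, Complex.ofReal_im, zero_mul, sub_zero,
        add_zero, Complex.I_re, Complex.I_im, one_mul, zero_sub, zero_add]
      linear_combination (s * (V - z).re) * him - (s * (V - z).im) * hre +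
        (lam * s * ((cis (t0 + τ)).im * (V - z).re - (cis (t0 + τ)).re * (V - z).im)) * hε2
    rw [e]; positivity
  · filter_upwards [ball_mem_nhds V hρ] with x hx hne g1 g2
    have hx : ‖x - V‖ < ρ := by rw [← dist_eq_norm]; exact hx
    have hX2 : (x - V).re ^ 2 + (x - V).im ^ 2 = ‖x - V‖ ^ 2 := by
      rw [Complex.sq_norm, Complex.normSq_apply]; ring
    have hxz : dist x z ^ 2 - 1 = ‖x - V‖ ^ 2 + 2 * ((x - V).re * (V - z).re + (x - V).im * (V - z).im) := by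
      rw [sq_dist, ← hX2]
      simp only [Complex.sub_re, Complex.sub_im] at hN ⊢
      linear_combination hN
    have f1 : -‖x - V‖ ^ 2 ≤ ip ((lam : ℂ) * cis t0) (x - V) := by
      have e : ip ((lam : ℂ) * cis t0) (x - V) = lam * ip (cis t0) (x - V) := by
        simp only [ip, Complex.mul_re, Complex.mul_im, Complex.ofReal_re, Complex.ofReal_im, zero_mul, sub_zero,
          add_zero]
        ring
      rw [e]; exact g1
    have f2 : -‖x - V‖ ^ 2 ≤ ip ((ε : ℂ) * (V - z)) (x - V) := by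
      have e : ip ((ε : ℂ) * (V - z)) (x - V) = ε * ((x - V).re * (V - z).re + (x - V).im * (V - z).im) := by
        simp only [ip, Complex.mul_re, Complex.mul_im, Complex.ofReal_re, Complex.ofReal_im, zero_mul, sub_zero,
          add_zero]
        ring
      rw [e]
      rw [hxz] at g2
      have := sq_nonneg ‖x - V‖
      rcases hε with rfl | rfl
      · linarith
      · linarith
    have f3 := hlin (x - V) (sub_ne_zero.2 hne) hx f1 f2
    have e : s * (ε * cr (σ * (Complex.I * cis (t0 + τ))) (x - V)) =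
        α * ip ((lam : ℂ) * cis t0) (x - V) + β * ip ((ε : ℂ) * (V - z)) (x - V) := by
      rw [hσe]
      simp only [ip, cr, Complex.mul_re, Complex.mul_im, Complex.ofReal_re, Complex.ofReal_im, zero_mul, sub_zero,
        add_zero, Complex.I_re, Complex.I_im, one_mul, zero_sub, zero_add]
      linear_combination (x - V).re * hre + (x - V).im * him +
        (lam * s * s * ((cis (t0 + τ)).im * (x - V).im + (cis (t0 + τ)).re * (x - V).re)) * hε2 +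
        (lam * ((cis (t0 + τ)).im * (x - V).im + (cis (t0 + τ)).re * (x - V).re)) * hs2
    rw [e]; exact f3

/-- a point of the circle near `V` on the side of the arc -/
theorem on_circ {z V u : ℂ} {ε s t1 : ℝ} (hV : dist V z = 1) (hu : ‖u‖ = 1) (hε : ε = 1 ∨ ε = -1)
    (hs : s = 1 ∨ s = -1) (hκ : 0 < ε * ip u (V - z)) (ht1 : 0 < t1) :
    ∀ᶠ x in 𝓝 V, dist x z = 1 → 0 < s * (ε * cr u (x - V)) →
      ∃ t ∈ Icc 0 t1, x = z + (V - z) * cis (s * t) := by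
  have hN : (V - z).re ^ 2 + (V - z).im ^ 2 = 1 := ip_sq (by rw [← dist_eq_norm]; exact hV)
  have hU := ip_sq hu
  have hε2 : ε * ε = 1 := by rcases hε with rfl | rfl <;> norm_num
  have hzV : z = V - (V - z) := by ring
  generalize V - z = N at *
  obtain ⟨m, hm0, hm1, hm2⟩ : ∃ m : ℝ, 0 < m ∧ m ≤ (ε * ip u N) / 10 ∧ 2 * m ≤ t1 :=
    ⟨min ((ε * ip u N) / 10) (t1 / 2), by positivity, min_le_left _ _, by
      have := min_le_right ((ε * ip u N) / 10) (t1 / 2); linarith⟩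
  filter_upwards [ball_mem_nhds V hm0] with x hx hxz g1
  have hx : dist x V < m := hx
  have hxV : (x - V).re ^ 2 + (x - V).im ^ 2 = dist x V ^ 2 := by
    rw [sq_dist]; simp
  have hxz2 : dist x z ^ 2 = (x - V).re ^ 2 + (x - V).im ^ 2 + 2 * ((x - V).re * N.re + (x - V).im * N.im) + 1 := by
    rw [hzV, sq_dist]; simp
    linear_combination hN
  rw [hxz] at hxz2
  obtain ⟨t, ht, e1, e2⟩ := onarc (κ := ε * ip u N) (ω := N.re * u.im - N.im * u.re) (ε := ε) (s := s)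
    (y1 := N.re * (x - V).re + N.im * (x - V).im) (y2 := N.re * (x - V).im - N.im * (x - V).re) hκ
    (by
      simp only [ip]
      linear_combination (u.re * N.re + u.im * N.im) ^ 2 * hε2 + (u.re ^ 2 + u.im ^ 2) * hN + hU) hε hs hm0.le hm1 hm2
    (by
      have e : (N.re * (x - V).re + N.im * (x - V).im) ^ 2 + (N.re * (x - V).im - N.im * (x - V).re) ^ 2 =
          dist x V ^ 2 := by
        linear_combination hxV + ((x - V).re ^ 2 + (x - V).im ^ 2) * hN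
      rw [e]; exact pow_le_pow_left₀ dist_nonneg hx.le 2)
    (by
      have e : s * (-ε * (N.re * u.im - N.im * u.re) * (N.re * (x - V).re + N.im * (x - V).im) +
          ε * ip u N * (N.re * (x - V).im - N.im * (x - V).re)) = s * (ε * cr u (x - V)) := by
        simp only [ip, cr]
        linear_combination s * ε * (u.re * (x - V).im - u.im * (x - V).re) * hN
      rw [e]; exact g1.le)
    (by
      linear_combination ε * ((x - V).re ^ 2 + (x - V).im ^ 2) * hN - ε * hxz2)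
  refine ⟨t, ht, ?_⟩
  have hc : Real.cos (s * t) = Real.cos t := by
    rcases hs with rfl | rfl
    · rw [one_mul]
    · rw [neg_one_mul, Real.cos_neg]
  have hc' : Real.sin (s * t) = s * Real.sin t := by
    rcases hs with rfl | rfl
    · rw [one_mul, one_mul]
    · rw [neg_one_mul, Real.sin_neg, neg_one_mul]
  have hX : x = V + N * ((N.re * (x - V).re + N.im * (x - V).im : ℝ) +
      (N.re * (x - V).im - N.im * (x - V).re : ℝ) * Complex.I) := by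
    apply Complex.ext
    · simp
      linear_combination (-(x.re - V.re)) * hN
    · simp
      linear_combination (-(x.im - V.im)) * hN
  have hcis : cis (s * t) = (Real.cos t : ℂ) + ((s * Real.sin t : ℝ) : ℂ) * Complex.I := by
    apply Complex.ext
    · simp [cis_re, hc, -Complex.ofReal_cos, -Complex.ofReal_sin]
    · simp [cis_im, hc', -Complex.ofReal_cos, -Complex.ofReal_sin]
  rw [hX, hcis, e1, e2]
  simp only [Complex.ofReal_sub, Complex.ofReal_one]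
  linear_combination (-1 : ℂ) * (by rw [hzV] : z = V - N)

end Vale.Agent.P032.H635
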