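import Vale.Agent.P032.H635.Cusp

/-!
# P032: the two sides of the unit circle of an exact arc
-/

open Set Filter Topology Metric

noncomputable section

namespace Vale.Agent.P032.H635

open Vale.Agent.P032.Six Vale.Agent.P032.S5.H767

variable {U : Fin 6 → Set ℂ} {T : ℂ → Set (Fin 6)} {V : ℂ} {e f : Fin 6}

/-- the position of `P` with respect to the unit circle about `Q + cis t` -/
def Fn (P Q : ℂ) (t : ℝ) : ℝ := ‖P - Q‖ ^ 2 - 2 * ip (cis t) (P - Q)

theorem Fn_eq (P Q : ℂ) (t : ℝ) : dist P (Q + cis t) ^ 2 = Fn P Q t + 1 := by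
  have h1 := Real.sin_sq_add_cos_sq t
  rw [Fn, sq_dist, Complex.sq_norm, Complex.normSq_apply]
  simp only [ip, Complex.add_re, Complex.add_im, Complex.sub_re, Complex.sub_im, cis_re, cis_im]
  linear_combination h1

theorem Fn_le {P Q : ℂ} {t : ℝ} (h : dist (Q + cis t) P ≤ 1) : Fn P Q t ≤ 0 := by
  have h1 := Fn_eq P Q t
  have h2 := dist_nonneg (x := Q + cis t) (y := P)
  rw [dist_comm] at h1
  nlinarith

theorem Fn_ge {P Q : ℂ} {t : ℝ} (h : 1 ≤ dist (Q + cis t) P) : 0 ≤ Fn P Q t := by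
  have h1 := Fn_eq P Q t
  rw [dist_comm] at h1
  nlinarith

/-- an arc of colour `i` about `Q` is near or far of `P` -/
theorem arc_nf (h : Irr U T) {i : Fin 6} {P Q : ℂ} {t0 η : ℝ}
    (hQ : ∀ t, |t - t0| < η → i ∈ Pal U (Q + cis t)) (hP : i ∈ Pal U P) :
    (∀ t, |t - t0| < η → Fn P Q t ≤ 0) ∨ ∀ t, |t - t0| < η → 0 ≤ Fn P Q t := by
  have hΓ : IsPreconnected ((fun t : ℝ => Q + cis t) '' Ioo (t0 - η) (t0 + η)) :=
    isPreconnected_Ioo.image _ (continuous_const.add continuous_cis).continuousOn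
  have hm : ∀ t, |t - t0| < η → t ∈ Ioo (t0 - η) (t0 + η) := by
    intro t ht
    rw [abs_lt] at ht
    constructor <;> linarith [ht.1, ht.2]
  rcases nof h hΓ (i := i) (by
    rintro x ⟨t, ht, rfl⟩
    refine hQ t ?_
    rw [abs_lt]; constructor <;> linarith [ht.1, ht.2]) hP with h1 | h1
  · left
    exact fun t ht => Fn_le (h1 _ ⟨t, hm t ht, rfl⟩)
  · right
    exact fun t ht => Fn_ge (h1 _ ⟨t, hm t ht, rfl⟩)

theorem Fn_swap (P Q : ℂ) (t : ℝ) : Fn Q P t = ‖P - Q‖ ^ 2 + 2 * ip (cis t) (P - Q) := by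
  rw [Fn, norm_sub_rev]
  have : ip (cis t) (Q - P) = -ip (cis t) (P - Q) := by unfold ip; simp; ring
  rw [this]; ring

theorem cr_cis (t t' : ℝ) : cr (cis t) (cis t') = Real.sin (t' - t) := by
  rw [Real.sin_sub]; simp only [cr, cis_re, cis_im]; ring

/-- two parameters with a second order component -/
theorem two_zero {X : ℂ} {t t' δ c0 : ℝ} (hδ : t' - t = δ) (hc : c0 ≤ Real.sin δ) (hc0 : 0 < c0) (hX : ‖X‖ < c0)
    (g1 : |2 * ip (cis t) X| ≤ ‖X‖ ^ 2) (g2 : |2 * ip (cis t') X| ≤ ‖X‖ ^ 2) : X = 0 := by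
  refine small_zero (norm_cis t) (norm_cis t') ?_ g1 g2
  rw [cr_cis, hδ, abs_of_pos (by linarith)]
  linarith

/-- the transfer of the side -/
theorem transfer (h : Irr U T) {X Y : ℂ} {t0 η c0 κ : ℝ} (hκ : κ = 1 ∨ κ = -1) (hη : 0 < η)
    (hc0 : 0 < c0) (hc1 : c0 ≤ Real.sin (η / 4)) (hc2 : c0 ≤ Real.sin (η / 2))
    (hVe : ∀ t, |t - t0| < η → e ∈ Pal U (V + cis t)) (hXf : ∀ t, |t - t0| < η → f ∈ Pal U (X + cis t))
    (hfV : f ∈ Pal U V) (heX : e ∈ Pal U X) (hX : κ * Fn X V t0 < 0) {Q : Set ℂ} (hQ : IsPreconnected Q)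
    (hQf : Q ⊆ closure (U f)) (hVQ : V ∈ Q) (hYQ : Y ∈ Q) (hXV : X ≠ V) (hYX : Y ≠ X) (n1 : ‖X - V‖ < c0)
    (n2 : ‖Y - X‖ < c0) : ∀ t, |t - t0| < η → 0 ≤ κ * Fn Y X t := by
  have p0 : |t0 - t0| < η := by rw [sub_self, abs_zero]; exact hη
  have p1 : |t0 + η / 4 - t0| < η := by rw [add_sub_cancel_left, abs_of_pos (by linarith)]; linarith
  have p2 : |t0 + η / 2 - t0| < η := by rw [add_sub_cancel_left, abs_of_pos (by linarith)]; linarith
  have hD : X - V ≠ 0 := sub_ne_zero.2 hXV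
  have hE : Y - X ≠ 0 := sub_ne_zero.2 hYX
  have hD2 : 0 < ‖X - V‖ ^ 2 := by positivity
  have hE2 : 0 < ‖Y - X‖ ^ 2 := by positivity
  have q1 : ∀ t, |t - t0| < η → κ * Fn X V t ≤ 0 := by
    rcases arc_nf h hVe heX with h1 | h1
    · rcases hκ with rfl | rfl
      · intro t ht; have := h1 t ht; linarith
      · have := h1 t0 p0; linarith
    · rcases hκ with rfl | rfl
      · have := h1 t0 p0; linarith
      · intro t ht; have := h1 t ht; linarith
  have q2 : ∀ t, |t - t0| < η → 0 ≤ κ * Fn V X t := by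
    rcases arc_nf h hXf hfV with h1 | h1
    · rcases hκ with rfl | rfl
      · have a1 := h1 t0 p0
        have a2 := q1 t0 p0
        rw [Fn_swap] at a1
        rw [Fn] at a2
        linarith
      · intro t ht; have := h1 t ht; linarith
    · rcases hκ with rfl | rfl
      · intro t ht; have := h1 t ht; linarith
      · exfalso
        apply hD
        have key : ∀ t, |t - t0| < η → |2 * ip (cis t) (X - V)| ≤ ‖X - V‖ ^ 2 := by
          intro t ht
          have a1 := h1 t ht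
          have a2 := q1 t ht
          rw [Fn_swap] at a1
          rw [Fn] at a2
          rw [abs_le]; constructor <;> linarith
        exact two_zero (t := t0) (t' := t0 + η / 2) (δ := η / 2) (by ring) hc2 hc0 n1 (key _ p0) (key _ p2)
  rcases arc_nf h hXf (hQf hYQ : f ∈ Pal U Y) with h1 | h1
  · rcases hκ with rfl | rfl
    · -- all `≤ 0`, but should be `≥ 0`
      exfalso
      have key : ∀ t, |t - t0| < η → Fn V X t = 0 ∨ Fn Y X t = 0 := by
        intro t ht
        by_contra hcon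
        push Not at hcon
        have a1 := q2 t ht
        have a2 := h1 t ht
        have a3 : 0 < Fn V X t := lt_of_le_of_ne (by linarith) hcon.1.symm
        have a4 : Fn Y X t < 0 := lt_of_le_of_ne a2 hcon.2
        have b1 := Fn_eq V X t
        have b2 := Fn_eq Y X t
        have b3 := dist_nonneg (x := V) (y := X + cis t)
        have b4 := dist_nonneg (x := Y) (y := X + cis t)
        exact h.mx.wlemma hQ hQf hYQ hVQ (by nlinarith) (by nlinarith) (hXf t ht)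
      have z1 : ∀ t, Fn V X t = 0 → |2 * ip (cis t) (X - V)| ≤ ‖X - V‖ ^ 2 := by
        intro t ht
        rw [Fn_swap] at ht
        rw [abs_le]; constructor <;> linarith
      have z2 : ∀ t, Fn Y X t = 0 → |2 * ip (cis t) (Y - X)| ≤ ‖Y - X‖ ^ 2 := by
        intro t ht
        rw [Fn] at ht
        rw [abs_le]; constructor <;> linarith
      rcases key _ p0 with k0 | k0 <;> rcases key _ p1 with k1 | k1 <;> rcases key _ p2 with k2 | k2
      · exact hD (two_zero (δ := η / 4) (by ring) hc1 hc0 n1 (z1 _ k0) (z1 _ k1))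
      · exact hD (two_zero (δ := η / 4) (by ring) hc1 hc0 n1 (z1 _ k0) (z1 _ k1))
      · exact hD (two_zero (δ := η / 2) (by ring) hc2 hc0 n1 (z1 _ k0) (z1 _ k2))
      · exact hE (two_zero (δ := η / 4) (by ring) hc1 hc0 n2 (z2 _ k1) (z2 _ k2))
      · exact hD (two_zero (δ := η / 4) (by ring) hc1 hc0 n1 (z1 _ k1) (z1 _ k2))
      · exact hE (two_zero (δ := η / 2) (by ring) hc2 hc0 n2 (z2 _ k0) (z2 _ k2))
      · exact hE (two_zero (δ := η / 4) (by ring) hc1 hc0 n2 (z2 _ k0) (z2 _ k1))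
      · exact hE (two_zero (δ := η / 4) (by ring) hc1 hc0 n2 (z2 _ k0) (z2 _ k1))
    · intro t ht; have := h1 t ht; linarith
  · rcases hκ with rfl | rfl
    · intro t ht; have := h1 t ht; linarith
    · exfalso
      have key : ∀ t, |t - t0| < η → Fn V X t = 0 ∨ Fn Y X t = 0 := by
        intro t ht
        by_contra hcon
        push Not at hcon
        have a1 := q2 t ht
        have a2 := h1 t ht
        have a3 : Fn V X t < 0 := lt_of_le_of_ne (by linarith) hcon.1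
        have a4 : 0 < Fn Y X t := lt_of_le_of_ne a2 hcon.2.symm
        have b1 := Fn_eq V X t
        have b2 := Fn_eq Y X t
        have b3 := dist_nonneg (x := V) (y := X + cis t)
        have b4 := dist_nonneg (x := Y) (y := X + cis t)
        exact h.mx.wlemma hQ hQf hVQ hYQ (by nlinarith) (by nlinarith) (hXf t ht)
      have z1 : ∀ t, Fn V X t = 0 → |2 * ip (cis t) (X - V)| ≤ ‖X - V‖ ^ 2 := by
        intro t ht
        rw [Fn_swap] at ht
        rw [abs_le]; constructor <;> linarith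
      have z2 : ∀ t, Fn Y X t = 0 → |2 * ip (cis t) (Y - X)| ≤ ‖Y - X‖ ^ 2 := by
        intro t ht
        rw [Fn] at ht
        rw [abs_le]; constructor <;> linarith
      rcases key _ p0 with k0 | k0 <;> rcases key _ p1 with k1 | k1 <;> rcases key _ p2 with k2 | k2
      · exact hD (two_zero (δ := η / 4) (by ring) hc1 hc0 n1 (z1 _ k0) (z1 _ k1))
      · exact hD (two_zero (δ := η / 4) (by ring) hc1 hc0 n1 (z1 _ k0) (z1 _ k1))
      · exact hD (two_zero (δ := η / 2) (by ring) hc2 hc0 n1 (z1 _ k0) (z1 _ k2))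
      · exact hE (two_zero (δ := η / 4) (by ring) hc1 hc0 n2 (z2 _ k1) (z2 _ k2))
      · exact hD (two_zero (δ := η / 4) (by ring) hc1 hc0 n1 (z1 _ k1) (z1 _ k2))
      · exact hE (two_zero (δ := η / 2) (by ring) hc2 hc0 n2 (z2 _ k0) (z2 _ k2))
      · exact hE (two_zero (δ := η / 4) (by ring) hc1 hc0 n2 (z2 _ k0) (z2 _ k1))
      · exact hE (two_zero (δ := η / 4) (by ring) hc1 hc0 n2 (z2 _ k0) (z2 _ k1))

/-- near the arc only the colours of the arc -/
theorem thick (h : Irr U T) {t0 η : ℝ} (hη : 0 < η) (hE : ∀ t : ℝ, |t - t0| < η → T (V + cis t) = {e, f}) :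
    ∃ δ > 0, ∀ X : ℂ, ‖X - V‖ < δ → ∀ t, |t - t0| < η / 2 → T (X + cis t) ⊆ {e, f} := by
  have hO : IsOpen {x : ℂ | T x ⊆ {e, f}} := by
    refine isOpen_iff_mem_nhds.2 fun x hx => ?_
    filter_upwards [h.nhd x] with y hy
    exact hy.trans hx
  have hK : IsCompact ((fun t : ℝ => V + cis t) '' Icc (t0 - η / 2) (t0 + η / 2)) :=
    isCompact_Icc.image (continuous_const.add continuous_cis)
  have hKO : (fun t : ℝ => V + cis t) '' Icc (t0 - η / 2) (t0 + η / 2) ⊆ {x : ℂ | T x ⊆ {e, f}} := by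
    rintro _ ⟨t, ht, rfl⟩
    have h1 : |t - t0| < η := by
      rw [abs_lt]; constructor <;> linarith [ht.1, ht.2]
    show T (V + cis t) ⊆ {e, f}
    rw [hE t h1]
  obtain ⟨δ, hδ, hth⟩ := hK.exists_thickening_subset_open hO hKO
  refine ⟨δ, hδ, fun X hX t ht => hth (mem_thickening_iff.2 ⟨V + cis t, ⟨t, ?_, rfl⟩, ?_⟩)⟩
  · rw [abs_lt] at ht; constructor <;> linarith [ht.1, ht.2]
  · rw [dist_eq_norm, add_sub_add_right_eq_sub]; exact hX

/-- pure points are an open set -/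
theorem pure_open (h : Irr U T) (i : Fin 6) : IsOpen {x : ℂ | T x = {i}} := by
  refine isOpen_iff_mem_nhds.2 fun x hx => ?_
  have hx : T x = {i} := hx
  filter_upwards [h.nhd x] with y hy
  obtain ⟨j, hj⟩ := h.ne y
  rw [hx] at hy
  refine Subset.antisymm hy (singleton_subset_iff.2 ?_)
  have hj2 := hy hj
  rw [mem_singleton_iff] at hj2
  exact hj2 ▸ hj

/-- a pure point near `V` off a given unit circle -/
theorem exists_pure (h : Irr U T) {i : Fin 6} (hi : i ∈ T V) (w : ℂ) {P : ℂ → Prop} (hP : ∀ᶠ x in 𝓝 V, P x) :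
    ∃ x, T x = {i} ∧ P x ∧ dist x w ≠ 1 := by
  have hcl : V ∈ closure {x : ℂ | T x = {i}} := mem_closure_iff_frequently.2 (h.pure V i hi)
  obtain ⟨x, ⟨hx1, hx2⟩, hx3⟩ := exists_off (pure_open h i) (z := w) hcl hP
  exact ⟨x, hx1, hx2, hx3⟩

/-- the circle of a pure point near the arc -/
theorem pure_arc (h : Irr U T) {X : ℂ} {i j : Fin 6} (hX : T X = {i}) {t : ℝ} (hs : T (X + cis t) ⊆ {i, j}) :
    j ∈ Pal U (X + cis t) := by
  obtain ⟨m, hm⟩ := h.ne (X + cis t)
  rcases hs hm with rfl | h1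
  · exfalso
    refine h.mx.notMem' (h.mem_of_single (x := X) (i := m) (by rw [hX])) ?_ (h.sub _ hm)
    rw [dist_comm]; exact dist_add_cis X t
  · rw [mem_singleton_iff] at h1
    subst h1
    exact h.sub _ hm

/-- **THE SIDES**: the colours `e, f` of an exact arc of `S(V)` are not on the same side of `S(y0)` near `V` -/
theorem sep (h : Irr U T) (hct : Ctn U T V) (heV : e ∈ T V) (hfV : f ∈ T V) (hef : e ≠ f) {t0 η κ : ℝ}
    (hκ : κ = 1 ∨ κ = -1) (hη : 0 < η) (hη1 : η ≤ 1) (hE : ∀ t : ℝ, |t - t0| < η → T (V + cis t) = {e, f})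
    (h1 : ∀ᶠ x in 𝓝 V, e ∈ T x → κ * (dist x (V + cis t0) ^ 2 - 1) ≤ 0)
    (h2 : ∀ᶠ x in 𝓝 V, f ∈ T x → κ * (dist x (V + cis t0) ^ 2 - 1) ≤ 0) : False := by
  obtain ⟨δ, hδ, hth⟩ := thick h hη hE
  have hpi := Real.pi_gt_three
  have s1 : 0 < Real.sin (η / 2 / 4) := Real.sin_pos_of_pos_of_lt_pi (by positivity) (by linarith)
  have s2 : 0 < Real.sin (η / 2 / 2) := Real.sin_pos_of_pos_of_lt_pi (by positivity) (by linarith)
  obtain ⟨c0, hc0, hc1, hc2⟩ : ∃ c0 : ℝ, 0 < c0 ∧ c0 ≤ Real.sin (η / 2 / 4) ∧ c0 ≤ Real.sin (η / 2 / 2) :=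
    ⟨min _ _, lt_min s1 s2, min_le_left _ _, min_le_right _ _⟩
  have hN : ∀ᶠ x in 𝓝 V, ‖x - V‖ < δ ∧ ‖x - V‖ < c0 / 2 ∧
      (∀ i ∈ T x, ∃ Q ⊆ closure (U i), IsPreconnected Q ∧ V ∈ Q ∧ x ∈ Q) ∧
      (e ∈ T x → κ * (dist x (V + cis t0) ^ 2 - 1) ≤ 0) ∧ (f ∈ T x → κ * (dist x (V + cis t0) ^ 2 - 1) ≤ 0) := by
    filter_upwards [ball_mem_nhds V hδ, ball_mem_nhds V (half_pos hc0), hct, h1, h2] with x k1 k2 k3 k4 k5
    rw [mem_ball, dist_eq_norm] at k1 k2
    exact ⟨k1, k2, k3, k4, k5⟩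
  obtain ⟨X, hX, ⟨x1, x2, x3, x4, -⟩, x5⟩ := exists_pure h heV (V + cis t0) hN
  obtain ⟨Y, hY, ⟨y1, y2, y3, -, y4⟩, y5⟩ := exists_pure h hfV (V + cis t0) hN
  have hne : ∀ x : ℂ, dist x (V + cis t0) ≠ 1 → κ * (dist x (V + cis t0) ^ 2 - 1) ≤ 0 → κ * Fn x V t0 < 0 := by
    intro x g1 g2
    rw [Fn_eq, add_sub_cancel_right] at g2
    refine lt_of_le_of_ne g2 fun g3 => g1 ?_
    have g4 : Fn x V t0 = 0 := by
      rcases hκ with rfl | rfl <;> linarith
    have g5 := Fn_eq x V t0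
    rw [g4] at g5
    have g6 := dist_nonneg (x := x) (y := V + cis t0)
    nlinarith
  have hXV : X ≠ V := by
    rintro rfl
    rw [hX] at hfV
    exact hef (mem_singleton_iff.1 hfV).symm
  have hYV : Y ≠ V := by
    rintro rfl
    rw [hY] at heV
    exact hef (mem_singleton_iff.1 heV)
  have hXY : X ≠ Y := by
    rintro rfl
    rw [hX] at hY
    exact hef (singleton_injective hY)
  have hn : ‖Y - X‖ < c0 := by
    have e1 : Y - X = (Y - V) - (X - V) := by ring
    rw [e1]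
    have := norm_sub_le (Y - V) (X - V)
    linarith
  obtain ⟨Qf, q1, q2, q3, q4⟩ := y3 f (by rw [hY]; rfl)
  obtain ⟨Qe, r1, r2, r3, r4⟩ := x3 e (by rw [hX]; rfl)
  have A := transfer h (e := e) (f := f) (X := X) (Y := Y) (V := V) (t0 := t0) (η := η / 2) (c0 := c0) hκ (by positivity)
    hc0 hc1 hc2
    (fun t ht => h.sub _ (by rw [hE t (by linarith)]; simp)) (fun t ht => pure_arc h hX (hth X x1 t ht))
    (h.sub V hfV) (h.sub X (by rw [hX]; rfl)) (hne X x5 (x4 (by rw [hX]; rfl))) q2 q1 q3 q4 hXV hXY.symm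
    (by linarith) hn
  have B := transfer h (e := f) (f := e) (X := Y) (Y := X) (V := V) (t0 := t0) (η := η / 2) (c0 := c0) hκ (by positivity)
    hc0 hc1 hc2
    (fun t ht => h.sub _ (by rw [hE t (by linarith)]; simp))
    (fun t ht => pure_arc h hY (by rw [pair_comm]; exact hth Y y1 t ht))
    (h.sub V heV) (h.sub Y (by rw [hY]; rfl)) (hne Y y5 (y4 (by rw [hY]; rfl))) r2 r1 r3 r4 hYV hXY
    (by linarith) (by rw [norm_sub_rev]; exact hn)
  have hE0 : Y - X ≠ 0 := sub_ne_zero.2 hXY.symm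
  have hE2 : 0 < ‖Y - X‖ ^ 2 := by positivity
  have p0 : |t0 - t0| < η / 2 := by rw [sub_self, abs_zero]; positivity
  have p2 : |t0 + η / 2 / 2 - t0| < η / 2 := by rw [add_sub_cancel_left, abs_of_pos (by linarith)]; linarith
  rcases hκ with rfl | rfl
  · apply hE0
    have key : ∀ t, |t - t0| < η / 2 → |2 * ip (cis t) (Y - X)| ≤ ‖Y - X‖ ^ 2 := by
      intro t ht
      have a1 := A t ht
      have a2 := B t ht
      rw [Fn] at a1
      rw [Fn_swap] at a2
      rw [abs_le]; constructor <;> linarith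
    exact two_zero (t := t0) (t' := t0 + η / 2 / 2) (δ := η / 2 / 2) (by ring) hc2 hc0 hn (key _ p0) (key _ p2)
  · have a1 := A t0 p0
    have a2 := B t0 p0
    rw [Fn] at a1
    rw [Fn_swap] at a2
    linarith

end Vale.Agent.P032.H635
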